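import Vale.Agent.KK.Orbit

/-!
# Counting copies in the complete graph
-/

namespace Vale.Agent.KK

open SimpleGraph Finset

variable {V W : Type*}

/-- Copies of `F` in the complete graph are the injections of the vertex set. -/
def copyTopEquiv (F : SimpleGraph W) : Copy F (⊤ : SimpleGraph V) ≃ (W ↪ V) where
  toFun φ := φ.toEmbedding
  invFun f := ⟨⟨f, fun {a b} h => by
    rw [top_adj]
    exact fun hab => h.ne (f.injective hab)⟩, f.injective⟩
  left_inv φ := by ext; rfl
  right_inv f := by ext; rfl

theorem labelledCopyCount_top [Fintype V] [Fintype W] (F : SimpleGraph W) :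
    (⊤ : SimpleGraph V).labelledCopyCount F =
      (Fintype.card V).descFactorial (Fintype.card W) := by
  classical
  rw [labelledCopyCount_eq_natCard, Nat.card_congr (copyTopEquiv F), Nat.card_eq_fintype_card,
    Fintype.card_embedding_eq]

instance instFiniteIso [Finite W] (F : SimpleGraph W) : Finite (F ≃g F) :=
  Finite.of_injective (fun e : F ≃g F => (e : W → W)) (fun _ _ h => DFunLike.coe_injective h)

theorem card_aut_pos [Finite W] (F : SimpleGraph W) : 0 < Nat.card (F ≃g F) :=
  Nat.card_pos_iff.mpr ⟨⟨Iso.refl⟩, inferInstance⟩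

/-- To compare copy counts it suffices to compare labelled copy counts. -/
theorem copyCount_le_of_labelled {V₁ V₂ : Type*} [Fintype V₁] [Fintype V₂] [Fintype W]
    (G₁ : SimpleGraph V₁) (G₂ : SimpleGraph V₂) (F : SimpleGraph W) (X : ℝ)
    (h : (G₁.labelledCopyCount F : ℝ) ≤ (G₂.labelledCopyCount F : ℝ) * X) :
    (G₁.copyCount F : ℝ) ≤ (G₂.copyCount F : ℝ) * X := by
  have h1 := copyCount_mul_card_aut G₁ F
  have h2 := copyCount_mul_card_aut G₂ F
  have hpos : (0 : ℝ) < (Nat.card (F ≃g F) : ℝ) := by exact_mod_cast card_aut_pos F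
  rw [← h1, ← h2] at h
  push_cast at h
  have : (G₁.copyCount F : ℝ) * (Nat.card (F ≃g F) : ℝ) ≤
      ((G₂.copyCount F : ℝ) * X) * (Nat.card (F ≃g F) : ℝ) := by linarith
  exact le_of_mul_le_mul_right this hpos

/-- Copy counts only depend on the isomorphism class of the pattern. -/
theorem copyCount_congr {W' : Type*} [Fintype V] (G : SimpleGraph V) {F : SimpleGraph W}
    {F' : SimpleGraph W'} (e : F ≃g F') : G.copyCount F = G.copyCount F' := by
  classical
  rw [copyCount, copyCount]
  congr 1
  ext S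
  simp only [mem_filter, mem_univ, true_and]
  exact ⟨fun ⟨f⟩ => ⟨f.comp e.symm⟩, fun ⟨f⟩ => ⟨f.comp e⟩⟩

end Vale.Agent.KK
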