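import Vale.Agent.KK.Count

/-!
# Counting copies of a graph with a small vertex cover in the complete graph
-/

namespace Vale.Agent.KK

open SimpleGraph Finset

/-- The set of pairs with at least one end in `K`. -/
def touch {n : ℕ} (K : Finset (Fin n)) : Finset (Sym2 (Fin n)) :=
  (K ×ˢ (univ : Finset (Fin n))).image (fun p => s(p.1, p.2))

theorem card_touch_le {n : ℕ} (K : Finset (Fin n)) : (touch K).card ≤ K.card * n := by
  unfold touch
  calc _ ≤ (K ×ˢ (univ : Finset (Fin n))).card := card_image_le
    _ = K.card * n := by simp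

theorem mem_touch {n : ℕ} (K : Finset (Fin n)) (a b : Fin n) (h : a ∈ K ∨ b ∈ K) :
    s(a, b) ∈ touch K := by
  unfold touch
  rw [mem_image]
  rcases h with h | h
  · exact ⟨(a, b), by simp [h], rfl⟩
  · exact ⟨(b, a), by simp [h], Sym2.eq_swap⟩

section
variable {n : ℕ} {U : SimpleGraph (Fin n)} {S : (⊤ : SimpleGraph (Fin n)).Subgraph}

theorem verts_eq_univ_of_iso (f : U ≃g S.coe) : S.verts = Set.univ := by
  classical
  exact (set_fintype_card_eq_univ_iff _).1 (Fintype.card_congr f.toEquiv.symm)

theorem edgeSet_eq_image_of_iso (f : U ≃g S.coe) :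
    S.edgeSet = Sym2.map (fun v => ((f v : S.verts) : Fin n)) '' U.edgeSet := by
  ext e
  induction e using Sym2.ind with
  | _ a b =>
    rw [Subgraph.mem_edgeSet]
    constructor
    · intro hab
      have ha : a ∈ S.verts := S.edge_vert hab
      have hb : b ∈ S.verts := S.edge_vert hab.symm
      refine ⟨s(f.symm ⟨a, ha⟩, f.symm ⟨b, hb⟩), ?_, ?_⟩
      · rw [mem_edgeSet]
        have : S.coe.Adj ⟨a, ha⟩ ⟨b, hb⟩ := hab
        exact f.symm.map_rel_iff.2 this
      · simp
    · rintro ⟨e', he', hmap⟩
      induction e' using Sym2.ind with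
      | _ a' b' =>
        rw [mem_edgeSet] at he'
        have h1 : S.coe.Adj (f a') (f b') := f.map_rel_iff.2 he'
        have h2 : S.Adj (f a' : Fin n) (f b' : Fin n) := h1
        rw [Sym2.map_mk, Sym2.eq_iff] at hmap
        rcases hmap with ⟨h3, h4⟩ | ⟨h3, h4⟩
        · rw [← h3, ← h4]; exact h2
        · rw [← h3, ← h4]; exact h2.symm

theorem ncard_edgeSet_of_iso (f : U ≃g S.coe) : S.edgeSet.ncard = U.edgeSet.ncard := by
  rw [edgeSet_eq_image_of_iso f]
  apply Set.ncard_image_of_injective
  apply Sym2.map.injective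
  intro v w h
  exact f.injective (Subtype.ext h)

end

/-- **Cover encoding.** If the graph `U` on `[n]` has a vertex cover `K`, then the number of
copies of `U` in `K_n` is at most `C(n,|K|) * C(|K| n, e(U))`. -/
theorem copyCount_top_le_of_cover (n : ℕ) (U : SimpleGraph (Fin n)) (K : Finset (Fin n))
    (hK : ∀ v w, U.Adj v w → v ∈ K ∨ w ∈ K) :
    (⊤ : SimpleGraph (Fin n)).copyCount U ≤
      n.choose K.card * (K.card * n).choose U.edgeSet.ncard := by
  classical
  set m := K.card with hm
  set e := U.edgeSet.ncard with he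
  let T : Finset (Finset (Sym2 (Fin n))) :=
    (powersetCard m (univ : Finset (Fin n))).biUnion (fun K' => powersetCard e (touch K'))
  have hT : T.card ≤ n.choose m * (m * n).choose e := by
    calc T.card ≤ ∑ K' ∈ powersetCard m (univ : Finset (Fin n)),
          (powersetCard e (touch K')).card := card_biUnion_le
      _ ≤ ∑ K' ∈ powersetCard m (univ : Finset (Fin n)), (m * n).choose e := by
          apply sum_le_sum
          intro K' hK'
          rw [card_powersetCard]
          apply Nat.choose_le_choose
          rw [mem_powersetCard] at hK'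
          rw [← hK'.2]
          exact card_touch_le K'
      _ = n.choose m * (m * n).choose e := by
          rw [sum_const, card_powersetCard, card_univ, Fintype.card_fin, smul_eq_mul]
  rw [copyCount_eq_natCard]
  refine le_trans ?_ hT
  have key : ∀ S : {S : (⊤ : SimpleGraph (Fin n)).Subgraph // Nonempty (U ≃g S.coe)},
      S.1.edgeSet.toFinset ∈ T := by
    rintro ⟨S, ⟨f⟩⟩
    simp only [T, mem_biUnion, mem_powersetCard]
    refine ⟨K.image (fun v => ((f v : S.verts) : Fin n)), ⟨subset_univ _, ?_⟩, ?_, ?_⟩
    · rw [card_image_of_injective]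
      intro v w h
      exact f.injective (Subtype.ext h)
    · intro x hx
      rw [Set.mem_toFinset] at hx
      induction x using Sym2.ind with
      | _ a b =>
        rw [Subgraph.mem_edgeSet] at hx
        have ha : a ∈ S.verts := S.edge_vert hx
        have hb : b ∈ S.verts := S.edge_vert hx.symm
        have h1 : S.coe.Adj ⟨a, ha⟩ ⟨b, hb⟩ := hx
        have h2 : U.Adj (f.symm ⟨a, ha⟩) (f.symm ⟨b, hb⟩) := f.symm.map_rel_iff.2 h1
        apply mem_touch
        rcases hK _ _ h2 with h | h
        · left
          rw [mem_image]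
          exact ⟨_, h, by simp⟩
        · right
          rw [mem_image]
          exact ⟨_, h, by simp⟩
    · rw [← Set.ncard_eq_toFinset_card', ncard_edgeSet_of_iso f]
  let Φ : {S : (⊤ : SimpleGraph (Fin n)).Subgraph // Nonempty (U ≃g S.coe)} → T :=
    fun S => ⟨S.1.edgeSet.toFinset, key S⟩
  have hΦ : Function.Injective Φ := by
    rintro ⟨S, ⟨f⟩⟩ ⟨S', ⟨f'⟩⟩ h
    have h1 : S.edgeSet.toFinset = S'.edgeSet.toFinset := congrArg Subtype.val h
    have h2 : S.edgeSet = S'.edgeSet := Set.toFinset_inj.1 h1
    apply Subtype.ext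
    apply Subgraph.ext
    · rw [verts_eq_univ_of_iso f, verts_eq_univ_of_iso f']
    · ext a b
      rw [← Subgraph.mem_edgeSet, ← Subgraph.mem_edgeSet, h2]
  have := Nat.card_le_card_of_injective Φ hΦ
  simpa using this

end Vale.Agent.KK
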