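import Vale.Agent.KK.StarForestFinal

/-!
# Forests: the copy-count inequality with the density floor `log n / n`
-/

namespace Vale.Agent.KK

open SimpleGraph Finset

/-- A finite acyclic graph with an edge has a leaf. -/
theorem exists_leaf_of_isAcyclic {W : Type*} [Finite W] {F : SimpleGraph W} (hF : F.IsAcyclic)
    (hne : ∃ a b, F.Adj a b) : ∃ u w, F.Adj u w ∧ ∀ x, F.Adj u x → x = w := by
  classical
  obtain ⟨a, b, hab⟩ := hne
  have : Nonempty W := ⟨a⟩
  have ⟨u, v, p, hp, hmax⟩ := Walk.exists_isPath_forall_isPath_length_le_length F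
  have hnil : ¬p.Nil := by
    have h1 := hmax a b (Walk.cons hab Walk.nil) (by simp [hab.ne])
    intro hn
    have h2 : p.length = 0 := Walk.length_eq_zero_iff.2 hn
    simp at h1
    omega
  refine ⟨u, p.snd, p.adj_snd hnil, fun w hadj => ?_⟩
  apply hF.eq_snd_of_adj_start hp hadj
  have : ¬(p.cons hadj.symm).IsPath := by grind [Walk.length_cons]
  grind [hp.cons]

section restrict

variable {V W : Type*} (H : SimpleGraph V) (F : SimpleGraph W)

/-- Restricting a copy to the complement of a vertex, remembering the image of that vertex. -/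
noncomputable def restrictCopy (v : W) (φ : Copy F H) : Copy (F.induce ({v}ᶜ : Set W)) H × V :=
  (φ.comp (Copy.induce F ({v}ᶜ : Set W)), φ v)

theorem restrictCopy_injective (v : W) : Function.Injective (restrictCopy H F v) := by
  intro φ ψ h
  apply DFunLike.ext
  intro w
  by_cases hw : w = v
  · subst hw
    exact congrArg Prod.snd h
  · have h1 := congrArg Prod.fst h
    have h2 := congrArg (fun χ : Copy (F.induce ({v}ᶜ : Set W)) H => χ ⟨w, hw⟩) h1
    simpa [restrictCopy, Copy.induce] using h2

theorem card_copy_le_isolated [Fintype V] [Fintype W] (v : W) :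
    Nat.card (Copy F H) ≤ Nat.card (Copy (F.induce ({v}ᶜ : Set W)) H) * Fintype.card V := by
  classical
  have := Nat.card_le_card_of_injective _ (restrictCopy_injective H F v)
  rwa [Nat.card_prod, Nat.card_eq_fintype_card (α := V)] at this

theorem card_copy_le_leaf [Fintype V] [DecidableRel H.Adj] [Fintype W] (v u : W)
    (huv : F.Adj v u) (Δ : ℕ) (hΔ : ∀ x, H.degree x ≤ Δ) :
    Nat.card (Copy F H) ≤ Nat.card (Copy (F.induce ({v}ᶜ : Set W)) H) * Δ := by
  classical
  have hne : u ≠ v := huv.ne'
  let u' : ({v}ᶜ : Set W) := ⟨u, hne⟩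
  let S : Finset (Copy (F.induce ({v}ᶜ : Set W)) H × V) :=
    (univ : Finset (Copy (F.induce ({v}ᶜ : Set W)) H)).biUnion
      (fun φ' => (H.neighborFinset (φ' u')).image (fun y => (φ', y)))
  have hS : S.card ≤ Fintype.card (Copy (F.induce ({v}ᶜ : Set W)) H) * Δ := by
    calc S.card ≤ ∑ φ' : Copy (F.induce ({v}ᶜ : Set W)) H,
          ((H.neighborFinset (φ' u')).image (fun y => (φ', y))).card := card_biUnion_le
      _ ≤ ∑ _φ' : Copy (F.induce ({v}ᶜ : Set W)) H, Δ := by
          apply sum_le_sum
          intro φ' _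
          exact le_trans card_image_le (by rw [card_neighborFinset_eq_degree]; exact hΔ _)
      _ = Fintype.card (Copy (F.induce ({v}ᶜ : Set W)) H) * Δ := by
          rw [sum_const, card_univ, smul_eq_mul]
  have hmem : ∀ φ : Copy F H, restrictCopy H F v φ ∈ S := by
    intro φ
    simp only [S, mem_biUnion, mem_univ, true_and, mem_image, mem_neighborFinset]
    refine ⟨φ.comp (Copy.induce F ({v}ᶜ : Set W)), φ v, ?_, rfl⟩
    have : H.Adj (φ u) (φ v) := φ.toHom.map_adj huv.symm
    simpa [Copy.induce, u'] using this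
  have h1 : Fintype.card (Copy F H) ≤ S.card := by
    rw [← card_univ]
    exact card_le_card_of_injOn (restrictCopy H F v) (fun φ _ => hmem φ)
      (fun a _ b _ hab => restrictCopy_injective H F v hab)
  rw [Nat.card_eq_fintype_card, Nat.card_eq_fintype_card]
  exact le_trans h1 hS

end restrict

/-- Edge count after removing one vertex. -/
theorem ncard_edgeSet_induce_compl_singleton {W : Type*} [Fintype W] [DecidableEq W]
    (F : SimpleGraph W) [DecidableRel F.Adj] (v : W) :
    (F.induce ({v}ᶜ : Set W)).edgeSet.ncard = F.edgeSet.ncard - F.degree v := by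
  have h1 := card_edgeFinset_induce_compl_singleton F v
  have h2 := card_edgeFinset_deleteIncidenceSet F v
  rw [h2] at h1
  rw [Set.ncard_eq_toFinset_card', Set.ncard_eq_toFinset_card']
  simpa [edgeFinset] using h1

/-- **Counting copies of a forest.** If every degree of `H` is at most `Δ`, an acyclic graph
`F` with `e` edges on `c + e` vertices has at most `|V|^c Δ^e` labelled copies in `H`. -/
theorem card_copy_forest_le {V : Type*} [Fintype V] (H : SimpleGraph V) [DecidableRel H.Adj]
    (Δ : ℕ) (hΔ : ∀ x, H.degree x ≤ Δ) :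
    ∀ (m : ℕ) (W : Type) [Fintype W] (F : SimpleGraph W), Fintype.card W = m → F.IsAcyclic →
      ∃ c, c + F.edgeSet.ncard = m ∧
        Nat.card (Copy F H) ≤ Fintype.card V ^ c * Δ ^ F.edgeSet.ncard := by
  intro m
  induction m with
  | zero =>
    intro W _ F hW hF
    have hemp : IsEmpty W := Fintype.card_eq_zero_iff.1 hW
    have he : F.edgeSet = ∅ := by
      ext e
      induction e using Sym2.ind with
      | _ a b => exact isEmptyElim a
    refine ⟨0, by rw [he]; simp, ?_⟩
    have : Subsingleton (Copy F H) := ⟨fun a b => DFunLike.ext _ _ (fun w => isEmptyElim w)⟩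
    rw [he]
    simpa using Finite.card_le_one_iff_subsingleton.2 this
  | succ m ih =>
    intro W _ F hW hF
    classical
    by_cases hiso : ∃ v, ∀ x, ¬F.Adj v x
    · obtain ⟨v, hv⟩ := hiso
      have hcard : Fintype.card (({v}ᶜ : Set W)) = m := by
        rw [Fintype.card_compl_set]
        simp [hW]
      obtain ⟨c, hc, hle⟩ := ih _ (F.induce ({v}ᶜ : Set W)) hcard (hF.induce _)
      have hdeg : F.degree v = 0 := by
        rw [← card_neighborFinset_eq_degree, card_eq_zero]
        ext x
        simp [hv x]
      have he := ncard_edgeSet_induce_compl_singleton F v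
      rw [hdeg, Nat.sub_zero] at he
      rw [he] at hc hle
      refine ⟨c + 1, by omega, ?_⟩
      calc Nat.card (Copy F H)
          ≤ Nat.card (Copy (F.induce ({v}ᶜ : Set W)) H) * Fintype.card V :=
            card_copy_le_isolated H F v
        _ ≤ (Fintype.card V ^ c * Δ ^ F.edgeSet.ncard) * Fintype.card V :=
            Nat.mul_le_mul_right _ hle
        _ = Fintype.card V ^ (c + 1) * Δ ^ F.edgeSet.ncard := by ring
    · push Not at hiso
      have hW' : Nonempty W := by
        rw [← Fintype.card_pos_iff]; omega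
      obtain ⟨w0⟩ := hW'
      obtain ⟨w1, hw1⟩ := hiso w0
      obtain ⟨v, u, hvu, hleaf⟩ := exists_leaf_of_isAcyclic hF ⟨w0, w1, hw1⟩
      have hcard : Fintype.card (({v}ᶜ : Set W)) = m := by
        rw [Fintype.card_compl_set]
        simp [hW]
      obtain ⟨c, hc, hle⟩ := ih _ (F.induce ({v}ᶜ : Set W)) hcard (hF.induce _)
      have hdeg : F.degree v = 1 := by
        rw [degree_eq_one_iff_existsUnique_adj]
        exact ⟨u, hvu, fun y hy => hleaf y hy⟩
      have hepos : 1 ≤ F.edgeSet.ncard := by
        rw [Nat.one_le_iff_ne_zero, Ne, Set.ncard_eq_zero (Set.toFinite _)]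
        intro h0
        have : s(v, u) ∈ F.edgeSet := hvu
        rw [h0] at this
        exact this
      have he := ncard_edgeSet_induce_compl_singleton F v
      rw [hdeg] at he
      rw [he] at hc hle
      refine ⟨c, by omega, ?_⟩
      calc Nat.card (Copy F H)
          ≤ Nat.card (Copy (F.induce ({v}ᶜ : Set W)) H) * Δ :=
            card_copy_le_leaf H F v u hvu Δ hΔ
        _ ≤ (Fintype.card V ^ c * Δ ^ (F.edgeSet.ncard - 1)) * Δ :=
            Nat.mul_le_mul_right _ hle
        _ = Fintype.card V ^ c * Δ ^ F.edgeSet.ncard := by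
            rw [mul_assoc, ← pow_succ, Nat.sub_add_cancel hepos]

end Vale.Agent.KK
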