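import Vale.Agent.KK.Forest

/-!
# Forests: the copy-count inequality with the density floor `log n / n` (final form)
-/

namespace Vale.Agent.KK

open SimpleGraph Finset

theorem card_le_two_mul_edges {W : Type*} [Fintype W] (F : SimpleGraph W)
    (hiso : ∀ w, ∃ w', F.Adj w w') : Fintype.card W ≤ 2 * F.edgeSet.ncard := by
  classical
  have h := F.sum_degrees_eq_twice_card_edges
  have h1 : ∑ _v : W, 1 ≤ ∑ v, F.degree v := by
    apply sum_le_sum
    intro v _
    obtain ⟨w', hw'⟩ := hiso v
    rw [Nat.one_le_iff_ne_zero, ← card_neighborFinset_eq_degree, Ne, card_eq_zero]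
    intro h0
    have : w' ∈ F.neighborFinset v := by simp [hw']
    rw [h0] at this
    simp at this
  rw [sum_const, card_univ, smul_eq_mul, mul_one, h] at h1
  rw [Set.ncard_eq_toFinset_card']
  simpa [edgeFinset] using h1

theorem exp_const_le55 : Real.exp 1 ^ 2 * Real.exp 2 ≤ (55 : ℝ) := by
  have h1 : Real.exp 1 < 2.7182818286 := Real.exp_one_lt_d9
  have h0 : (0 : ℝ) < Real.exp 1 := Real.exp_pos 1
  have h3 : Real.exp 2 = Real.exp 1 ^ 2 := by
    rw [← Real.exp_nat_mul]; norm_num
  have h2 : Real.exp 1 ^ 4 < 2.7182818286 ^ 4 := by gcongr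
  rw [h3]
  have h4 : Real.exp 1 ^ 2 * Real.exp 1 ^ 2 = Real.exp 1 ^ 4 := by ring
  rw [h4]
  norm_num at h2 ⊢
  linarith

/-- The labelled inequality for forests without isolated vertices. -/
theorem forest_labelled_main {n : ℕ} {H : SimpleGraph (Fin n)} {q : ℝ}
    (hq0 : 0 ≤ q) (h : SubgraphsExpected n H q) (W : Type) [Fintype W]
    (F : SimpleGraph W) (hF : F.IsAcyclic) (hiso : ∀ w, ∃ w', F.Adj w w') :
    (H.labelledCopyCount F : ℝ) ≤
      (n.descFactorial (Fintype.card W) : ℝ) *
        (55 * max q (Real.log n / n)) ^ F.edgeSet.ncard := by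
  classical
  by_cases hw : Fintype.card W ≤ n
  · have hM0 : 0 ≤ max (Real.log n) (Real.exp 2 * n * q) :=
      le_trans (by positivity) (le_max_right _ _)
    have hΔ : ∀ x, H.degree x ≤ ⌊max (Real.log n) (Real.exp 2 * n * q)⌋₊ :=
      fun x => Nat.le_floor (degree_bound hq0 h x)
    obtain ⟨c, hc, hle⟩ := card_copy_forest_le H _ hΔ (Fintype.card W) W F rfl hF
    rw [Fintype.card_fin] at hle
    have hlab : (H.labelledCopyCount F : ℝ) ≤
        (n : ℝ) ^ c * (⌊max (Real.log n) (Real.exp 2 * n * q)⌋₊ : ℝ) ^ F.edgeSet.ncard := by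
      rw [labelledCopyCount_eq_natCard]
      exact_mod_cast hle
    have hΔM : (⌊max (Real.log n) (Real.exp 2 * n * q)⌋₊ : ℝ) ≤
        max (Real.log n) (Real.exp 2 * n * q) := Nat.floor_le hM0
    have hm0 : 0 ≤ max q (Real.log n / n) := le_trans hq0 (le_max_left _ _)
    have hexp2 : 1 ≤ Real.exp 2 := Real.one_le_exp (by norm_num)
    have hnm0 : 0 ≤ (n : ℝ) * max q (Real.log n / n) := mul_nonneg (Nat.cast_nonneg n) hm0
    have hMm : max (Real.log n) (Real.exp 2 * n * q) ≤
        Real.exp 2 * ((n : ℝ) * max q (Real.log n / n)) := by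
      apply max_le
      · rcases Nat.eq_zero_or_pos n with hn | hn
        · subst hn
          simp
        · have hnpos : (0 : ℝ) < n := by exact_mod_cast hn
          have h1 : (n : ℝ) * (Real.log n / n) ≤ (n : ℝ) * max q (Real.log n / n) :=
            mul_le_mul_of_nonneg_left (le_max_right _ _) hnpos.le
          have h2 : (n : ℝ) * (Real.log n / n) = Real.log n := by field_simp
          rw [h2] at h1
          nlinarith
      · have h1 : (n : ℝ) * q ≤ (n : ℝ) * max q (Real.log n / n) :=
          mul_le_mul_of_nonneg_left (le_max_left _ _) (Nat.cast_nonneg n)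
        nlinarith [Real.exp_pos 2]
    have hce : c ≤ F.edgeSet.ncard := by
      have := card_le_two_mul_edges F hiso
      omega
    have hconv := pow_le_exp_pow_mul_descFactorial n (Fintype.card W) hw
    have hcard2 : Fintype.card W ≤ 2 * F.edgeSet.ncard := card_le_two_mul_edges F hiso
    have hexp1 : 1 ≤ Real.exp 1 := Real.one_le_exp (by norm_num)
    calc (H.labelledCopyCount F : ℝ)
        ≤ (n : ℝ) ^ c * (⌊max (Real.log n) (Real.exp 2 * n * q)⌋₊ : ℝ) ^ F.edgeSet.ncard := hlab
      _ ≤ (n : ℝ) ^ c * (Real.exp 2 * ((n : ℝ) * max q (Real.log n / n))) ^ F.edgeSet.ncard := by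
          gcongr
          exact hΔM.trans hMm
      _ = (n : ℝ) ^ (Fintype.card W) * (Real.exp 2 * max q (Real.log n / n)) ^ F.edgeSet.ncard := by
          rw [← hc, pow_add, mul_pow, mul_pow, mul_pow]
          ring
      _ ≤ (Real.exp 1 ^ (Fintype.card W) * (n.descFactorial (Fintype.card W) : ℝ)) *
            (Real.exp 2 * max q (Real.log n / n)) ^ F.edgeSet.ncard := by
          gcongr
      _ ≤ (Real.exp 1 ^ (2 * F.edgeSet.ncard) * (n.descFactorial (Fintype.card W) : ℝ)) *
            (Real.exp 2 * max q (Real.log n / n)) ^ F.edgeSet.ncard := by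
          gcongr
      _ = (n.descFactorial (Fintype.card W) : ℝ) *
            (Real.exp 1 ^ 2 * Real.exp 2 * max q (Real.log n / n)) ^ F.edgeSet.ncard := by
          rw [pow_mul]
          ring
      _ ≤ (n.descFactorial (Fintype.card W) : ℝ) *
            (55 * max q (Real.log n / n)) ^ F.edgeSet.ncard := by
          gcongr
          exact exp_const_le55
  · rw [not_le] at hw
    rw [labelled_eq_zero_of_card_lt H F hw]
    have hm0 : 0 ≤ max q (Real.log n / n) := le_trans hq0 (le_max_left _ _)
    simp only [Nat.cast_zero]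
    positivity

/-- **Forests.** If every subgraph of `H` has expected count at least one at density `q`,
then for every forest `F`, `N(H,F) ≤ N(K_n,F) (55 max(q, log n / n))^{e(F)}`. -/
theorem forest_copyCount_le {n : ℕ} {H : SimpleGraph (Fin n)} {q : ℝ} (hq0 : 0 ≤ q)
    (h : SubgraphsExpected n H q) (W : Type) [Fintype W] (F : SimpleGraph W)
    (hF : F.IsAcyclic) :
    (H.copyCount F : ℝ) ≤ ((⊤ : SimpleGraph (Fin n)).copyCount F : ℝ) *
      (55 * max q (Real.log n / n)) ^ F.edgeSet.ncard := by
  classical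
  apply copyCount_le_of_labelled
  rw [labelledCopyCount_top, Fintype.card_fin]
  have key := labelled_of_support H F ((55 * max q (Real.log n / n)) ^ F.edgeSet.ncard) ?_
  · rw [Fintype.card_fin] at key; exact key
  rw [Fintype.card_fin, ← ncard_edgeSet_induce_support F]
  exact forest_labelled_main hq0 h F.support (F.induce F.support) (hF.induce _)
    (induce_support_no_isolated F)

/-- The same with the density capped at one. -/
theorem forest_copyCount_le_min {n : ℕ} {H : SimpleGraph (Fin n)} {q : ℝ} (hq0 : 0 ≤ q)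
    (h : SubgraphsExpected n H q) (W : Type) [Fintype W] (F : SimpleGraph W)
    (hF : F.IsAcyclic) :
    (H.copyCount F : ℝ) ≤ ((⊤ : SimpleGraph (Fin n)).copyCount F : ℝ) *
      (min 1 (55 * max q (Real.log n / n))) ^ F.edgeSet.ncard := by
  by_cases hq : 55 * max q (Real.log n / n) ≤ 1
  · rw [min_eq_right hq]
    exact forest_copyCount_le hq0 h W F hF
  · rw [not_le] at hq
    rw [min_eq_left hq.le, one_pow, mul_one]
    exact copyCount_le_top H F

end Vale.Agent.KK
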