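import Vale.Agent.KK.Cover

/-!
# The expectation hypothesis and its first consequences
-/

namespace Vale.Agent.KK

open SimpleGraph Finset

/-- Every subgraph of `H` has expected count at least one in `G(n,q)`:
`N(K_n, H') * q ^ e(H') ≥ 1` for every subgraph `H'` of `H`. -/
def SubgraphsExpected (n : ℕ) (H : SimpleGraph (Fin n)) (q : ℝ) : Prop :=
  ∀ H' : H.Subgraph,
    1 ≤ ((⊤ : SimpleGraph (Fin n)).copyCount H'.coe : ℝ) * q ^ H'.edgeSet.ncard

theorem hyp_spanning {n : ℕ} {H : SimpleGraph (Fin n)} {q : ℝ} (h : SubgraphsExpected n H q)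
    (U : SimpleGraph (Fin n)) (hU : U ≤ H) :
    1 ≤ ((⊤ : SimpleGraph (Fin n)).copyCount U : ℝ) * q ^ U.edgeSet.ncard := by
  have h1 := h (SimpleGraph.toSubgraph (G := H) U hU)
  have e : U ≃g (SimpleGraph.toSubgraph (G := H) U hU).coe :=
    { toFun := fun v => ⟨v, Set.mem_univ v⟩
      invFun := fun v => v.1
      left_inv := fun _ => rfl
      right_inv := fun _ => rfl
      map_rel_iff' := Iff.rfl }
  rw [← copyCount_congr _ e] at h1
  exact h1

theorem choose_le_exp_pow (N j : ℕ) (hj : 1 ≤ j) :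
    (N.choose j : ℝ) ≤ (Real.exp 1 * N / j) ^ j := by
  have h1 : (N.choose j : ℝ) ≤ (N : ℝ) ^ j / (j.factorial : ℝ) := Nat.choose_le_pow_div j N
  have h2 : (j : ℝ) ^ j / (j.factorial : ℝ) ≤ Real.exp j :=
    Real.pow_div_factorial_le_exp (x := (j : ℝ)) (by positivity) j
  have h3 : Real.exp (j : ℝ) = Real.exp 1 ^ j := by
    rw [← Real.exp_nat_mul, mul_one]
  have hjpos : (0 : ℝ) < (j : ℝ) := by exact_mod_cast hj
  have hfpos : (0 : ℝ) < (j.factorial : ℝ) := by exact_mod_cast Nat.factorial_pos j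
  have h4 : (N : ℝ) ^ j / (j.factorial : ℝ) =
      ((N : ℝ) / j) ^ j * ((j : ℝ) ^ j / (j.factorial : ℝ)) := by
    rw [div_pow]
    field_simp
  rw [h4] at h1
  calc (N.choose j : ℝ) ≤ ((N : ℝ) / j) ^ j * ((j : ℝ) ^ j / (j.factorial : ℝ)) := h1
    _ ≤ ((N : ℝ) / j) ^ j * Real.exp 1 ^ j := by
        apply mul_le_mul_of_nonneg_left
        · rw [← h3]; exact h2
        · positivity
    _ = (Real.exp 1 * N / j) ^ j := by
        rw [← mul_pow]
        congr 1
        ring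

theorem one_le_of_one_le_pow {x : ℝ} (hx : 0 ≤ x) {m : ℕ} (hm : m ≠ 0) (h : 1 ≤ x ^ m) :
    1 ≤ x := by
  by_contra hlt
  rw [not_le] at hlt
  have := pow_lt_one₀ hx hlt hm
  linarith

/-- The cover inequality: a subgraph `U ≤ H` with a vertex cover `K` satisfies
`1 ≤ C(n,|K|) * C(|K| n, e(U)) * q ^ e(U)`. -/
theorem cover_ineq {n : ℕ} {H : SimpleGraph (Fin n)} {q : ℝ} (hq : 0 ≤ q)
    (h : SubgraphsExpected n H q) (U : SimpleGraph (Fin n)) (hU : U ≤ H) (K : Finset (Fin n))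
    (hK : ∀ v w, U.Adj v w → v ∈ K ∨ w ∈ K) :
    1 ≤ ((n.choose K.card : ℝ) * ((K.card * n).choose U.edgeSet.ncard : ℝ)) *
      q ^ U.edgeSet.ncard := by
  have h1 := hyp_spanning h U hU
  have h2 := copyCount_top_le_of_cover n U K hK
  have h3 : ((⊤ : SimpleGraph (Fin n)).copyCount U : ℝ) ≤
      (n.choose K.card : ℝ) * ((K.card * n).choose U.edgeSet.ncard : ℝ) := by
    exact_mod_cast h2
  calc (1 : ℝ) ≤ ((⊤ : SimpleGraph (Fin n)).copyCount U : ℝ) * q ^ U.edgeSet.ncard := h1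
    _ ≤ _ := by
        apply mul_le_mul_of_nonneg_right h3
        positivity

end Vale.Agent.KK
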