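import Mathlib

/-!
# Orbit counting for copies of graphs

`G.copyCount F * |Aut F| = G.labelledCopyCount F`.
-/

namespace Vale.Agent.KK

open SimpleGraph

variable {V W : Type*}

theorem toSubgraph_coeCopy_comp {G : SimpleGraph V} {F : SimpleGraph W} (S : G.Subgraph)
    (e : F ≃g S.coe) : (S.coeCopy.comp e.toCopy).toSubgraph = S := by
  have h : (S.coeCopy.comp e.toCopy).toHom = S.hom.comp e.toHom := rfl
  simp [Copy.toSubgraph, h, Subgraph.map_comp]

theorem coe_isoToSubgraph {G : SimpleGraph V} {F : SimpleGraph W} (f : Copy F G) (w : W) :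
    ((f.isoToSubgraph w : f.toSubgraph.verts) : V) = f w := rfl

/-- The bijection between (copy subgraph, automorphism) pairs and labelled copies. -/
noncomputable def copyOfPair {G : SimpleGraph V} {F : SimpleGraph W}
    (p : {S : G.Subgraph // Nonempty (F ≃g S.coe)} × (F ≃g F)) : Copy F G :=
  p.1.1.coeCopy.comp ((Classical.choice p.1.2).comp p.2).toCopy

theorem copyOfPair_apply {G : SimpleGraph V} {F : SimpleGraph W}
    (p : {S : G.Subgraph // Nonempty (F ≃g S.coe)} × (F ≃g F)) (w : W) :
    copyOfPair p w = ((Classical.choice p.1.2) (p.2 w) : V) := rfl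

theorem copyOfPair_bijective {G : SimpleGraph V} {F : SimpleGraph W} :
    Function.Bijective (copyOfPair (G := G) (F := F)) := by
  constructor
  · rintro ⟨⟨S, hS⟩, σ⟩ ⟨⟨S', hS'⟩, σ'⟩ h
    have h1 : S = S' := by
      have := congrArg Copy.toSubgraph h
      simpa [copyOfPair, toSubgraph_coeCopy_comp] using this
    subst h1
    have h2 : σ = σ' := by
      ext w
      have := congrArg (fun f : Copy F G => f w) h
      simp only [copyOfPair_apply] at this
      have h3 := Subtype.ext this
      exact (Classical.choice hS).injective h3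
    rw [h2]
  · intro φ
    let S : {S : G.Subgraph // Nonempty (F ≃g S.coe)} := ⟨φ.toSubgraph, ⟨φ.isoToSubgraph⟩⟩
    refine ⟨(S, (Classical.choice S.2).symm.comp φ.isoToSubgraph), ?_⟩
    ext w
    rw [copyOfPair_apply]
    change (((Classical.choice S.2) ((Classical.choice S.2).symm (φ.isoToSubgraph w)) :
      φ.toSubgraph.verts) : V) = φ w
    rw [RelIso.apply_symm_apply]
    rfl

theorem card_copy_eq {G : SimpleGraph V} {F : SimpleGraph W} :
    Nat.card (Copy F G) = Nat.card {S : G.Subgraph // Nonempty (F ≃g S.coe)} * Nat.card (F ≃g F) := by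
  rw [← Nat.card_prod]
  exact (Nat.card_congr (Equiv.ofBijective _ copyOfPair_bijective)).symm

theorem copyCount_eq_natCard [Fintype V] (G : SimpleGraph V) (F : SimpleGraph W) :
    G.copyCount F = Nat.card {S : G.Subgraph // Nonempty (F ≃g S.coe)} := by
  classical
  rw [copyCount, Nat.card_eq_fintype_card, Fintype.card_subtype]

theorem labelledCopyCount_eq_natCard [Fintype V] [Fintype W] (G : SimpleGraph V)
    (F : SimpleGraph W) : G.labelledCopyCount F = Nat.card (Copy F G) := by
  classical
  rw [labelledCopyCount, Nat.card_eq_fintype_card]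

/-- Orbit counting: labelled copies = copies times automorphisms. -/
theorem copyCount_mul_card_aut [Fintype V] [Fintype W] (G : SimpleGraph V) (F : SimpleGraph W) :
    G.copyCount F * Nat.card (F ≃g F) = G.labelledCopyCount F := by
  rw [copyCount_eq_natCard, labelledCopyCount_eq_natCard, card_copy_eq]

end Vale.Agent.KK
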