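import Vale.Agent.KK.StarSum

/-!
# Counting labelled copies of star forests
-/

namespace Vale.Agent.KK

open SimpleGraph Finset

variable {n : ℕ} {W : Type*} [Fintype W] [DecidableEq W]

/-- The star sum `∑_{u : deg u ≥ k} (deg u)^k` as a natural number. -/
def starSum (H : SimpleGraph (Fin n)) [DecidableRel H.Adj] (k : ℕ) : ℕ :=
  ∑ u : Fin n, if k ≤ H.degree u then H.degree u ^ k else 0

/-- The target type of the encoding of a labelled copy of a star forest. -/
abbrev StarCode (H : SimpleGraph (Fin n)) [DecidableRel H.Adj] (F : SimpleGraph W)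
    [DecidableRel F.Adj] (C : Finset W) : Type _ :=
  Σ ψ : {ψ : C → Fin n // ∀ c : C, F.degree c ≤ H.degree (ψ c)},
    ∀ c : C, (F.neighborFinset c → H.neighborFinset (ψ.1 c))

theorem card_starCode (H : SimpleGraph (Fin n)) [DecidableRel H.Adj] (F : SimpleGraph W)
    [DecidableRel F.Adj] (C : Finset W) :
    Fintype.card (StarCode H F C) = ∏ c ∈ C, starSum H (F.degree c) := by
  rw [Fintype.card_sigma]
  have e1 : ∀ ψ : {ψ : C → Fin n // ∀ c : C, F.degree c ≤ H.degree (ψ c)},
      Fintype.card (∀ c : C, (F.neighborFinset c → H.neighborFinset (ψ.1 c))) =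
      ∏ c : C, H.degree (ψ.1 c) ^ F.degree c := by
    intro ψ
    rw [Fintype.card_pi]
    apply prod_congr rfl
    intro c _
    rw [Fintype.card_fun, Fintype.card_coe, Fintype.card_coe, card_neighborFinset_eq_degree,
      card_neighborFinset_eq_degree]
  rw [sum_congr rfl (fun ψ _ => e1 ψ)]
  rw [← sum_subtype (univ.filter (fun ψ : C → Fin n => ∀ c : C, F.degree c ≤ H.degree (ψ c)))
    (by intro x; simp) (fun ψ : C → Fin n => ∏ c : C, H.degree (ψ c) ^ F.degree c)]
  rw [sum_filter]
  have e2 : ∀ ψ : C → Fin n,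
      (if ∀ c : C, F.degree c ≤ H.degree (ψ c) then ∏ c : C, H.degree (ψ c) ^ F.degree c else 0) =
      ∏ c : C, (if F.degree (c : W) ≤ H.degree (ψ c) then H.degree (ψ c) ^ F.degree (c : W)
        else 0) := by
    intro ψ
    rw [Fintype.prod_ite_zero]
  rw [sum_congr rfl (fun ψ _ => e2 ψ)]
  rw [← Fintype.prod_sum (fun (c : C) (x : Fin n) =>
    if F.degree (c : W) ≤ H.degree x then H.degree x ^ F.degree (c : W) else 0)]
  rw [← prod_coe_sort C (fun c => starSum H (F.degree c))]
  rfl

/-- The code of a labelled copy: the images of the centres and of their neighbours. -/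
def starEncode (H : SimpleGraph (Fin n)) [DecidableRel H.Adj] (F : SimpleGraph W)
    [DecidableRel F.Adj] (C : Finset W) (φ : Copy F H) : StarCode H F C :=
  ⟨⟨fun c => φ c, fun c => φ.degree_le c⟩,
   fun c x => ⟨φ x, by
     have hx := x.2
     rw [mem_neighborFinset] at hx ⊢
     exact φ.toHom.map_adj hx⟩⟩

/-- Decoding: recover the map from its code. -/
noncomputable def starDecode {H : SimpleGraph (Fin n)} [DecidableRel H.Adj] {F : SimpleGraph W}
    [DecidableRel F.Adj] {C : Finset W} (h1 : ∀ u v, F.Adj u v → (u ∈ C ↔ v ∉ C))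
    (hiso : ∀ w, ∃ w', F.Adj w w') (t : StarCode H F C) (w : W) : Fin n :=
  if hw : w ∈ C then t.1.1 ⟨w, hw⟩
  else
    ((t.2 ⟨(hiso w).choose, by
        have h := h1 w _ (hiso w).choose_spec
        by_contra hc
        exact hw (h.2 hc)⟩
      ⟨w, by rw [mem_neighborFinset]; exact (hiso w).choose_spec.symm⟩ :
        H.neighborFinset _) : Fin n)

theorem starDecode_encode {H : SimpleGraph (Fin n)} [DecidableRel H.Adj] {F : SimpleGraph W}
    [DecidableRel F.Adj] {C : Finset W} (h1 : ∀ u v, F.Adj u v → (u ∈ C ↔ v ∉ C))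
    (hiso : ∀ w, ∃ w', F.Adj w w') (φ : Copy F H) (w : W) :
    starDecode h1 hiso (starEncode H F C φ) w = φ w := by
  unfold starDecode
  split_ifs with hw
  · rfl
  · rfl

theorem starEncode_injective {H : SimpleGraph (Fin n)} [DecidableRel H.Adj] {F : SimpleGraph W}
    [DecidableRel F.Adj] {C : Finset W} (h1 : ∀ u v, F.Adj u v → (u ∈ C ↔ v ∉ C))
    (hiso : ∀ w, ∃ w', F.Adj w w') : Function.Injective (starEncode H F C) := by
  intro φ φ' h
  ext w
  rw [← starDecode_encode h1 hiso φ w, ← starDecode_encode h1 hiso φ' w, h]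

/-- Labelled copies of a star forest are bounded by the product of star sums. -/
theorem labelled_starForest_le (H : SimpleGraph (Fin n)) [DecidableRel H.Adj] (F : SimpleGraph W)
    [DecidableRel F.Adj] (C : Finset W) (h1 : ∀ u v, F.Adj u v → (u ∈ C ↔ v ∉ C))
    (hiso : ∀ w, ∃ w', F.Adj w w') :
    H.labelledCopyCount F ≤ ∏ c ∈ C, starSum H (F.degree c) := by
  rw [labelledCopyCount_eq_natCard, ← card_starCode, ← Nat.card_eq_fintype_card]
  exact Nat.card_le_card_of_injective _ (starEncode_injective h1 hiso)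

end Vale.Agent.KK
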