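import Vale.Agent.KK.Count

/-!
# Removing isolated vertices from the pattern graph
-/

namespace Vale.Agent.KK

open SimpleGraph Finset

variable {V W : Type*}

/-- The induced graph on the non-isolated vertices has the same number of edges. -/
theorem ncard_edgeSet_induce_support (F : SimpleGraph W) :
    (F.induce F.support).edgeSet.ncard = F.edgeSet.ncard := by
  have h : F.edgeSet = Sym2.map (Subtype.val : F.support → W) '' (F.induce F.support).edgeSet := by
    ext e
    induction e using Sym2.ind with
    | _ a b =>
      rw [mem_edgeSet]
      constructor
      · intro hab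
        have ha : a ∈ F.support := (mem_support F).2 ⟨b, hab⟩
        have hb : b ∈ F.support := (mem_support F).2 ⟨a, hab.symm⟩
        exact ⟨s(⟨a, ha⟩, ⟨b, hb⟩), hab, rfl⟩
      · rintro ⟨e', he', hmap⟩
        induction e' using Sym2.ind with
        | _ a' b' =>
          rw [mem_edgeSet] at he'
          have h1 : F.Adj a'.1 b'.1 := he'
          rw [Sym2.map_mk, Sym2.eq_iff] at hmap
          rcases hmap with ⟨h3, h4⟩ | ⟨h3, h4⟩
          · rw [← h3, ← h4]; exact h1
          · rw [← h3, ← h4]; exact h1.symm
  rw [h]
  exact (Set.ncard_image_of_injective _ (Sym2.map.injective Subtype.val_injective)).symm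

theorem induce_support_no_isolated (F : SimpleGraph W) (s : F.support) :
    ∃ s' : F.support, (F.induce F.support).Adj s s' := by
  obtain ⟨w', hw'⟩ := (mem_support F).1 s.2
  exact ⟨⟨w', (mem_support F).2 ⟨s.1, hw'.symm⟩⟩, hw'⟩

section count

variable (G : SimpleGraph V) (F : SimpleGraph W)

/-- Code of a labelled copy: its restriction to the non-isolated vertices and the placement
of the isolated vertices. -/
abbrev SuppCode : Type _ :=
  Σ φ : Copy (F.induce F.support) G, ({w : W // w ∉ F.support} ↪ {v : V // v ∉ Set.range φ})

/-- Encoding a labelled copy. -/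
def suppEncode (φ : Copy F G) : SuppCode G F :=
  ⟨φ.comp (Copy.induce F F.support),
    ⟨fun z => ⟨φ z.1, by
      rintro ⟨s, hs⟩
      have h1 : (s : W) = z.1 := φ.injective hs
      exact z.2 (h1 ▸ s.2)⟩,
     by
      intro z z' h
      exact Subtype.ext (φ.injective (congrArg Subtype.val h))⟩⟩

open Classical in
/-- Decoding. -/
noncomputable def suppDecode (t : SuppCode G F) (w : W) : V :=
  if hw : w ∈ F.support then t.1 ⟨w, hw⟩ else (t.2 ⟨w, hw⟩ : V)

theorem suppDecode_encode (φ : Copy F G) (w : W) : suppDecode G F (suppEncode G F φ) w = φ w := by
  unfold suppDecode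
  split_ifs with hw
  · rfl
  · rfl

theorem suppEncode_injective : Function.Injective (suppEncode G F) := by
  intro φ φ' h
  ext w
  rw [← suppDecode_encode G F φ w, ← suppDecode_encode G F φ' w, h]

open Classical in
theorem labelled_le_support [Fintype V] [Fintype W] [Fintype F.support] :
    G.labelledCopyCount F ≤ G.labelledCopyCount (F.induce F.support) *
      (Fintype.card V - Fintype.card F.support).descFactorial
        (Fintype.card W - Fintype.card F.support) := by
  have h1 : Nat.card (Copy F G) ≤ Nat.card (SuppCode G F) :=
    Nat.card_le_card_of_injective _ (suppEncode_injective G F)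
  rw [labelledCopyCount_eq_natCard, labelledCopyCount_eq_natCard]
  refine le_trans h1 ?_
  rw [Nat.card_eq_fintype_card, Fintype.card_sigma]
  have h2 : ∀ φ : Copy (F.induce F.support) G,
      Fintype.card ({w : W // w ∉ F.support} ↪ {v : V // v ∉ Set.range φ}) =
      (Fintype.card V - Fintype.card F.support).descFactorial
        (Fintype.card W - Fintype.card F.support) := by
    intro φ
    rw [Fintype.card_embedding_eq, Fintype.card_subtype_compl, Fintype.card_subtype_compl]
    congr 2
    exact Set.card_range_of_injective φ.injective
  rw [sum_congr rfl (fun φ _ => h2 φ), sum_const, smul_eq_mul, card_univ,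
    Nat.card_eq_fintype_card]

open Classical in
/-- It suffices to prove the labelled inequality for the graph without its isolated vertices. -/
theorem labelled_of_support [Fintype V] [Fintype W] [Fintype F.support] (X : ℝ)
    (h : (G.labelledCopyCount (F.induce F.support) : ℝ) ≤
      ((Fintype.card V).descFactorial (Fintype.card F.support) : ℝ) * X) :
    (G.labelledCopyCount F : ℝ) ≤ ((Fintype.card V).descFactorial (Fintype.card W) : ℝ) * X := by
  have h1 := labelled_le_support G F
  have hle : Fintype.card F.support ≤ Fintype.card W := Fintype.card_subtype_le _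
  have h2 := Nat.descFactorial_mul_descFactorial (n := Fintype.card V) hle
  have h1' : (G.labelledCopyCount F : ℝ) ≤ (G.labelledCopyCount (F.induce F.support) : ℝ) *
      ((Fintype.card V - Fintype.card F.support).descFactorial
        (Fintype.card W - Fintype.card F.support) : ℝ) := by exact_mod_cast h1
  have h2' : (((Fintype.card V - Fintype.card F.support).descFactorial
      (Fintype.card W - Fintype.card F.support) : ℕ) : ℝ) *
      ((Fintype.card V).descFactorial (Fintype.card F.support) : ℝ) =
      ((Fintype.card V).descFactorial (Fintype.card W) : ℝ) := by exact_mod_cast h2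
  calc (G.labelledCopyCount F : ℝ) ≤ (G.labelledCopyCount (F.induce F.support) : ℝ) *
      ((Fintype.card V - Fintype.card F.support).descFactorial
        (Fintype.card W - Fintype.card F.support) : ℝ) := h1'
    _ ≤ (((Fintype.card V).descFactorial (Fintype.card F.support) : ℝ) * X) *
      ((Fintype.card V - Fintype.card F.support).descFactorial
        (Fintype.card W - Fintype.card F.support) : ℝ) :=
        mul_le_mul_of_nonneg_right h (by positivity)
    _ = ((Fintype.card V).descFactorial (Fintype.card W) : ℝ) * X := by
        rw [← h2']; ring

end count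

end Vale.Agent.KK
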