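import Vale.Agent.KK.StarForestMain
import Vale.Agent.KK.Support

/-!
# The copy-count inequality for star forests
-/

namespace Vale.Agent.KK

open SimpleGraph Finset

/-- A star forest: every edge has an endpoint whose only neighbour is the other endpoint
(a leaf). Equivalently, every connected component is a star `K_{1,k}`, `k ≥ 0`. -/
def IsStarForest {W : Type*} (F : SimpleGraph W) : Prop :=
  ∀ u v, F.Adj u v → (∀ w, F.Adj u w → w = v) ∨ (∀ w, F.Adj v w → w = u)

/-- A finite star forest has a set of centres: every edge joins a centre to a non-centre and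
every non-centre has at most one neighbour. -/
theorem IsStarForest.exists_centres {W : Type*} [Finite W] {F : SimpleGraph W}
    (hF : IsStarForest F) :
    ∃ C : Set W, (∀ u v, F.Adj u v → (u ∈ C ↔ v ∉ C)) ∧
      ∀ v, v ∉ C → ∀ a b, F.Adj v a → F.Adj v b → a = b := by
  obtain ⟨m, ⟨e⟩⟩ := Finite.exists_equiv_fin W
  let f : W → ℕ := fun w => (e w : ℕ)
  have hf : Function.Injective f := fun a b hab => e.injective (Fin.ext hab)
  let C : Set W := {u | ∃ v, F.Adj u v ∧
    ((∃ w, F.Adj u w ∧ w ≠ v) ∨ ((∀ w, F.Adj v w → w = u) ∧ f u < f v))}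
  have hX : ∀ u v, F.Adj u v → (∀ w, F.Adj u w → w = v) →
      (u ∈ C ↔ ((∀ w, F.Adj v w → w = u) ∧ f u < f v)) := by
    intro u v huv hleaf
    constructor
    · rintro ⟨v', huv', hor⟩
      have hv' : v' = v := hleaf v' huv'
      subst hv'
      rcases hor with ⟨w, huw, hwv⟩ | hh
      · exact absurd (hleaf w huw) hwv
      · exact hh
    · intro hh
      exact ⟨v, huv, Or.inr hh⟩
  have hY : ∀ u v, F.Adj u v → ¬ (∀ w, F.Adj u w → w = v) → u ∈ C := by
    intro u v huv hnot
    rw [not_forall] at hnot
    obtain ⟨w, hw⟩ := hnot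
    rw [Classical.not_imp] at hw
    exact ⟨v, huv, Or.inl ⟨w, hw.1, hw.2⟩⟩
  refine ⟨C, ?_, ?_⟩
  · intro u v huv
    have hne : f u ≠ f v := fun hh => F.ne_of_adj huv (hf hh)
    by_cases hu : ∀ w, F.Adj u w → w = v
    · by_cases hv : ∀ w, F.Adj v w → w = u
      · rw [hX u v huv hu, hX v u huv.symm hv]
        constructor
        · rintro ⟨_, h1⟩ ⟨_, h2⟩
          omega
        · intro h1
          refine ⟨hv, ?_⟩
          by_contra h2
          exact h1 ⟨hu, by omega⟩
      · have hvC : v ∈ C := hY v u huv.symm hv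
        rw [hX u v huv hu]
        constructor
        · intro h1; exact absurd h1.1 hv
        · intro h1; exact absurd hvC h1
    · have huC : u ∈ C := hY u v huv hu
      have hv : ∀ w, F.Adj v w → w = u := by
        rcases hF u v huv with h1 | h1
        · exact absurd h1 hu
        · exact h1
      constructor
      · intro _ hvC
        rw [hX v u huv.symm hv] at hvC
        exact hu hvC.1
      · intro _; exact huC
  · intro v hv a b ha hb
    by_contra hab
    exact hv ⟨a, ha, Or.inl ⟨b, hb, fun hh => hab hh.symm⟩⟩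

theorem labelled_le_top {n : ℕ} (H : SimpleGraph (Fin n)) {W : Type*} [Fintype W]
    (F : SimpleGraph W) :
    H.labelledCopyCount F ≤ (⊤ : SimpleGraph (Fin n)).labelledCopyCount F := by
  rw [labelledCopyCount_eq_natCard, labelledCopyCount_eq_natCard]
  apply Nat.card_le_card_of_injective (fun φ : Copy F H => (Copy.ofLE H ⊤ le_top).comp φ)
  intro φ φ' hh
  apply DFunLike.ext
  intro w
  have := congrArg (fun ψ : Copy F (⊤ : SimpleGraph (Fin n)) => ψ w) hh
  simpa using this

theorem copyCount_le_top {n : ℕ} (H : SimpleGraph (Fin n)) {W : Type*} [Fintype W]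
    (F : SimpleGraph W) :
    (H.copyCount F : ℝ) ≤ ((⊤ : SimpleGraph (Fin n)).copyCount F : ℝ) := by
  have := copyCount_le_of_labelled H (⊤ : SimpleGraph (Fin n)) F 1
    (by rw [mul_one]; exact_mod_cast labelled_le_top H F)
  rwa [mul_one] at this

/-- **Star forests.** If every subgraph of `H` has expected count at least one at density `q`,
then for every star forest `F`, `N(H,F) ≤ N(K_n,F) (402 q)^{e(F)}`. -/
theorem starForest_copyCount_le {n : ℕ} {H : SimpleGraph (Fin n)} {q : ℝ} (hq0 : 0 ≤ q)
    (h : SubgraphsExpected n H q) {W : Type*} [Fintype W] (F : SimpleGraph W)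
    (hF : IsStarForest F) :
    (H.copyCount F : ℝ) ≤
      ((⊤ : SimpleGraph (Fin n)).copyCount F : ℝ) * (402 * q) ^ F.edgeSet.ncard := by
  classical
  obtain ⟨C, h1, h2⟩ := hF.exists_centres
  apply copyCount_le_of_labelled
  rw [labelledCopyCount_top, Fintype.card_fin]
  have key := labelled_of_support H F ((402 * q) ^ F.edgeSet.ncard) ?_
  · rw [Fintype.card_fin] at key; exact key
  rw [Fintype.card_fin, ← ncard_edgeSet_induce_support F]
  refine starForest_labelled_main hq0 h (F.induce F.support)
    (univ.filter (fun s : F.support => s.1 ∈ C)) ?_ ?_ (induce_support_no_isolated F)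
  · intro u v huv
    simp only [mem_filter, mem_univ, true_and]
    exact h1 u.1 v.1 huv
  · intro v hv a b ha hb
    simp only [mem_filter, mem_univ, true_and] at hv
    exact Subtype.ext (h2 v.1 hv a.1 b.1 ha hb)

/-- The same with the density capped at one. -/
theorem starForest_copyCount_le_min {n : ℕ} {H : SimpleGraph (Fin n)} {q : ℝ} (hq0 : 0 ≤ q)
    (h : SubgraphsExpected n H q) {W : Type*} [Fintype W] (F : SimpleGraph W)
    (hF : IsStarForest F) :
    (H.copyCount F : ℝ) ≤
      ((⊤ : SimpleGraph (Fin n)).copyCount F : ℝ) * (min 1 (402 * q)) ^ F.edgeSet.ncard := by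
  by_cases hq : 402 * q ≤ 1
  · rw [min_eq_right hq]
    exact starForest_copyCount_le hq0 h F hF
  · rw [not_le] at hq
    rw [min_eq_left hq.le, one_pow, mul_one]
    exact copyCount_le_top H F

end Vale.Agent.KK
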