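import Vale.Agent.KK.StarForest

/-!
# The main inequality for star forests (no isolated vertices)
-/

namespace Vale.Agent.KK

open SimpleGraph Finset

theorem nat_pow_mul_factorial_le (n w : ℕ) (hw : w ≤ n) :
    n ^ w * w.factorial ≤ w ^ w * n.descFactorial w := by
  rw [← Nat.descFactorial_self w, Nat.descFactorial_eq_prod_range,
    Nat.descFactorial_eq_prod_range]
  have e1 : n ^ w = ∏ _i ∈ range w, n := by rw [prod_const, card_range]
  have e2 : w ^ w = ∏ _i ∈ range w, w := by rw [prod_const, card_range]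
  rw [e1, e2, ← prod_mul_distrib, ← prod_mul_distrib]
  apply prod_le_prod'
  intro i hi
  rw [mem_range] at hi
  obtain ⟨a, rfl⟩ : ∃ a, w = i + a := ⟨w - i, by omega⟩
  obtain ⟨b, rfl⟩ : ∃ b, n = i + a + b := ⟨n - (i + a), by omega⟩
  have h1 : i + a - i = a := by omega
  have h2 : i + a + b - i = a + b := by omega
  rw [h1, h2]
  nlinarith

theorem pow_le_exp_pow_mul_descFactorial (n w : ℕ) (hw : w ≤ n) :
    (n : ℝ) ^ w ≤ Real.exp 1 ^ w * (n.descFactorial w : ℝ) := by
  have h1 : ((n ^ w * w.factorial : ℕ) : ℝ) ≤ ((w ^ w * n.descFactorial w : ℕ) : ℝ) := by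
    exact_mod_cast nat_pow_mul_factorial_le n w hw
  push_cast at h1
  have hfpos : (0 : ℝ) < (w.factorial : ℝ) := by exact_mod_cast Nat.factorial_pos w
  have h2 : (w : ℝ) ^ w / (w.factorial : ℝ) ≤ Real.exp w :=
    Real.pow_div_factorial_le_exp (x := (w : ℝ)) (by positivity) w
  have h3 : Real.exp (w : ℝ) = Real.exp 1 ^ w := by
    rw [← Real.exp_nat_mul, mul_one]
  rw [h3, div_le_iff₀ hfpos] at h2
  have h4 : (n : ℝ) ^ w * (w.factorial : ℝ) ≤
      (Real.exp 1 ^ w * (n.descFactorial w : ℝ)) * (w.factorial : ℝ) := by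
    calc (n : ℝ) ^ w * (w.factorial : ℝ) ≤ (w : ℝ) ^ w * (n.descFactorial w : ℝ) := h1
      _ ≤ (Real.exp 1 ^ w * (w.factorial : ℝ)) * (n.descFactorial w : ℝ) :=
          mul_le_mul_of_nonneg_right h2 (by positivity)
      _ = (Real.exp 1 ^ w * (n.descFactorial w : ℝ)) * (w.factorial : ℝ) := by ring
  exact le_of_mul_le_mul_right h4 hfpos

section facts

variable {W : Type*} [Fintype W] [DecidableEq W] (F : SimpleGraph W) [DecidableRel F.Adj]
  (C : Finset W)

theorem starForest_eq_starUnion (h1 : ∀ u v, F.Adj u v → (u ∈ C ↔ v ∉ C)) :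
    F = starUnion C (fun c => F.neighborFinset c) := by
  ext x y
  rw [starUnion_adj]
  constructor
  · intro hxy
    refine ⟨F.ne_of_adj hxy, ?_⟩
    by_cases hx : x ∈ C
    · exact Or.inl ⟨hx, by rw [mem_neighborFinset]; exact hxy⟩
    · have hy : y ∈ C := by
        by_contra hy
        exact hx ((h1 x y hxy).2 hy)
      exact Or.inr ⟨hy, by rw [mem_neighborFinset]; exact hxy.symm⟩
  · rintro ⟨_, ⟨_, hy⟩ | ⟨_, hx⟩⟩
    · rw [mem_neighborFinset] at hy; exact hy
    · rw [mem_neighborFinset] at hx; exact hx.symm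

theorem starForest_edges (h1 : ∀ u v, F.Adj u v → (u ∈ C ↔ v ∉ C)) :
    F.edgeSet.ncard = ∑ c ∈ C, F.degree c := by
  have hF := starForest_eq_starUnion F C h1
  have h2 : F.edgeSet.ncard = (starUnion C (fun c => F.neighborFinset c)).edgeSet.ncard :=
    congrArg (fun G : SimpleGraph W => G.edgeSet.ncard) hF
  rw [h2, starUnion_ncard]
  · apply sum_congr rfl
    intro c _
    exact card_neighborFinset_eq_degree F c
  · intro u _ hu
    simp at hu
  · intro u hu u' hu' _ hmem
    rw [mem_neighborFinset] at hmem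
    exact absurd hu' ((h1 u u' hmem).1 hu)

theorem starForest_card (h1 : ∀ u v, F.Adj u v → (u ∈ C ↔ v ∉ C))
    (h2 : ∀ v, v ∉ C → ∀ a b, F.Adj v a → F.Adj v b → a = b)
    (hiso : ∀ w, ∃ w', F.Adj w w') :
    Fintype.card W = C.card + ∑ c ∈ C, F.degree c := by
  have e1 : (univ : Finset W) \ C = C.biUnion (fun c => F.neighborFinset c) := by
    ext x
    rw [mem_sdiff, mem_biUnion]
    constructor
    · rintro ⟨_, hx⟩
      obtain ⟨w', hw'⟩ := hiso x
      have hw'C : w' ∈ C := by
        by_contra hc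
        exact hx ((h1 x w' hw').2 hc)
      exact ⟨w', hw'C, by rw [mem_neighborFinset]; exact hw'.symm⟩
    · rintro ⟨c, hc, hx⟩
      rw [mem_neighborFinset] at hx
      exact ⟨mem_univ x, (h1 c x hx).1 hc⟩
  have e2 : (C.biUnion (fun c => F.neighborFinset c)).card = ∑ c ∈ C, F.degree c := by
    rw [card_biUnion]
    · apply sum_congr rfl
      intro c _
      exact card_neighborFinset_eq_degree F c
    · intro c hc c' hc' hne
      rw [Function.onFun, Finset.disjoint_left]
      intro x hx hx'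
      rw [mem_neighborFinset] at hx hx'
      have hxC : x ∉ C := (h1 c x hx).1 hc
      exact hne (h2 x hxC c c' hx.symm hx'.symm)
  have e3 : ((univ : Finset W) \ C).card + C.card = (univ : Finset W).card :=
    card_sdiff_add_card_eq_card (subset_univ C)
  rw [e1, e2, card_univ] at e3
  omega

omit [DecidableEq W] in
theorem starForest_centres_le (hiso : ∀ w, ∃ w', F.Adj w w') :
    C.card ≤ ∑ c ∈ C, F.degree c := by
  rw [card_eq_sum_ones]
  apply sum_le_sum
  intro c _
  have : 0 < F.degree c := by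
    rw [degree_pos_iff_exists_adj]
    exact hiso c
  omega

end facts

theorem starSum_cast_le {n : ℕ} {H : SimpleGraph (Fin n)} [DecidableRel H.Adj] {q : ℝ}
    (hq0 : 0 ≤ q) (h : SubgraphsExpected n H q) (k : ℕ) (hk : 1 ≤ k) :
    (starSum H k : ℝ) ≤ n * (20 * (Real.exp 1 * n * q)) ^ k := by
  have := star_sum_bound hq0 h k hk
  unfold starSum
  push_cast
  exact this

theorem labelled_eq_zero_of_card_lt {n : ℕ} (H : SimpleGraph (Fin n)) {W : Type*} [Fintype W]
    (F : SimpleGraph W) (hw : n < Fintype.card W) : H.labelledCopyCount F = 0 := by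
  rw [labelledCopyCount_eq_zero]
  rintro ⟨φ⟩
  have := Fintype.card_le_of_injective φ φ.injective
  rw [Fintype.card_fin] at this
  omega

theorem exp_const_le : 20 * Real.exp 1 ^ 3 ≤ (402 : ℝ) := by
  have h1 : Real.exp 1 < 2.7182818286 := Real.exp_one_lt_d9
  have h0 : (0 : ℝ) < Real.exp 1 := Real.exp_pos 1
  have h2 : Real.exp 1 ^ 3 < 2.7182818286 ^ 3 := by gcongr
  norm_num at h2 ⊢
  linarith

/-- The labelled inequality for star forests without isolated vertices. -/
theorem starForest_labelled_main {n : ℕ} {H : SimpleGraph (Fin n)} [DecidableRel H.Adj] {q : ℝ}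
    (hq0 : 0 ≤ q) (h : SubgraphsExpected n H q) {W : Type*} [Fintype W] [DecidableEq W]
    (F : SimpleGraph W) [DecidableRel F.Adj] (C : Finset W)
    (h1 : ∀ u v, F.Adj u v → (u ∈ C ↔ v ∉ C))
    (h2 : ∀ v, v ∉ C → ∀ a b, F.Adj v a → F.Adj v b → a = b)
    (hiso : ∀ w, ∃ w', F.Adj w w') :
    (H.labelledCopyCount F : ℝ) ≤
      (n.descFactorial (Fintype.card W) : ℝ) * (402 * q) ^ F.edgeSet.ncard := by
  by_cases hw : Fintype.card W ≤ n
  · have hD := starForest_edges F C h1
    have hcard := starForest_card F C h1 h2 hiso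
    have hcen := starForest_centres_le F C hiso
    set D := ∑ c ∈ C, F.degree c with hDdef
    rw [hD]
    have hlab := labelled_starForest_le H F C h1 hiso
    have hlab' : (H.labelledCopyCount F : ℝ) ≤ ((∏ c ∈ C, starSum H (F.degree c) : ℕ) : ℝ) := by
      exact_mod_cast hlab
    have hprod : ((∏ c ∈ C, starSum H (F.degree c) : ℕ) : ℝ) ≤
        ∏ c ∈ C, ((n : ℝ) * (20 * (Real.exp 1 * n * q)) ^ F.degree c) := by
      push_cast
      apply prod_le_prod
      · intro c _; positivity
      · intro c _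
        apply starSum_cast_le hq0 h
        have : 0 < F.degree c := by
          rw [degree_pos_iff_exists_adj]
          exact hiso c
        omega
    have hprod2 : ∏ c ∈ C, ((n : ℝ) * (20 * (Real.exp 1 * n * q)) ^ F.degree c) =
        (n : ℝ) ^ C.card * (20 * (Real.exp 1 * n * q)) ^ D := by
      rw [prod_mul_distrib, prod_const, prod_pow_eq_pow_sum]
    have hpow := pow_le_exp_pow_mul_descFactorial n (Fintype.card W) hw
    have hexp1 : (1 : ℝ) ≤ Real.exp 1 := by
      have := Real.add_one_le_exp (1 : ℝ)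
      linarith
    have hexpw : Real.exp 1 ^ Fintype.card W ≤ Real.exp 1 ^ (2 * D) :=
      pow_le_pow_right₀ hexp1 (by omega)
    calc (H.labelledCopyCount F : ℝ)
        ≤ (n : ℝ) ^ C.card * (20 * (Real.exp 1 * n * q)) ^ D :=
          le_trans hlab' (le_trans hprod (le_of_eq hprod2))
      _ = (n : ℝ) ^ Fintype.card W * (20 * Real.exp 1 * q) ^ D := by
          rw [hcard, pow_add, mul_pow 20, mul_pow (Real.exp 1 * (n : ℝ)), mul_pow (Real.exp 1),
            mul_pow (20 * Real.exp 1), mul_pow 20]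
          ring
      _ ≤ (Real.exp 1 ^ Fintype.card W * (n.descFactorial (Fintype.card W) : ℝ)) *
          (20 * Real.exp 1 * q) ^ D := by
          apply mul_le_mul_of_nonneg_right hpow (by positivity)
      _ ≤ (Real.exp 1 ^ (2 * D) * (n.descFactorial (Fintype.card W) : ℝ)) *
          (20 * Real.exp 1 * q) ^ D := by
          apply mul_le_mul_of_nonneg_right _ (by positivity)
          apply mul_le_mul_of_nonneg_right hexpw (by positivity)
      _ = (n.descFactorial (Fintype.card W) : ℝ) * (20 * Real.exp 1 ^ 3 * q) ^ D := by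
          rw [pow_mul, mul_pow (20 * Real.exp 1 ^ 3), mul_pow 20 (Real.exp 1 ^ 3),
            mul_pow (20 * Real.exp 1), mul_pow 20 (Real.exp 1), ← pow_mul, ← pow_mul]
          ring
      _ ≤ (n.descFactorial (Fintype.card W) : ℝ) * (402 * q) ^ D := by
          apply mul_le_mul_of_nonneg_left _ (by positivity)
          apply pow_le_pow_left₀ (by positivity)
          apply mul_le_mul_of_nonneg_right exp_const_le hq0
  · rw [not_le] at hw
    rw [labelled_eq_zero_of_card_lt H F hw, Nat.descFactorial_of_lt hw]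
    simp

end Vale.Agent.KK
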