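import Vale.Agent.KK.Tail

/-!
# The star sum: `∑_{u : deg u ≥ k} (deg u)^k ≤ n (20 e n q)^k`
-/

namespace Vale.Agent.KK

open SimpleGraph Finset

variable {n : ℕ}

theorem geom_sum_le (c : ℝ) (hc : 0 ≤ c) (N : ℕ) :
    ∑ i ∈ range N, (c + i) * (1 / 2 : ℝ) ^ i ≤ 2 * c + 2 := by
  have key : ∀ N : ℕ, ∑ i ∈ range N, (c + i) * (1 / 2 : ℝ) ^ i =
      2 * c + 2 - 2 * (c + N + 1) * (1 / 2 : ℝ) ^ N := by
    intro N
    induction N with
    | zero => simp; ring
    | succ N ih => rw [sum_range_succ, ih, pow_succ]; push_cast; ring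
  rw [key]
  have : 0 ≤ 2 * (c + N + 1) * (1 / 2 : ℝ) ^ N := by positivity
  linarith

theorem nat_aux (k : ℕ) (hk : 1 ≤ k) : 2 ^ k + 6 * k + 12 ≤ 20 ^ k := by
  induction k, hk using Nat.le_induction with
  | base => norm_num
  | succ k hk ih =>
    calc 2 ^ (k + 1) + 6 * (k + 1) + 12 ≤ 2 * (2 ^ k + 6 * k + 12) := by ring_nf; omega
      _ ≤ 2 * 20 ^ k := Nat.mul_le_mul_left 2 ih
      _ ≤ 20 ^ (k + 1) := by rw [pow_succ]; omega

theorem star_sum_bound {H : SimpleGraph (Fin n)} [DecidableRel H.Adj] {q : ℝ} (hq0 : 0 ≤ q)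
    (h : SubgraphsExpected n H q) (k : ℕ) (hk : 1 ≤ k) :
    (∑ u : Fin n, if k ≤ H.degree u then ((H.degree u : ℕ) : ℝ) ^ k else 0) ≤
      n * (20 * (Real.exp 1 * n * q)) ^ k := by
  set x : ℝ := Real.exp 1 * n * q with hx
  have hx0 : 0 ≤ x := by positivity
  have hpt : ∀ u : Fin n, (if k ≤ H.degree u then ((H.degree u : ℕ) : ℝ) ^ k else 0) ≤
      (2 * x) ^ k + ∑ a ∈ Ico k n,
        (if H.degree u = a ∧ 2 * x < (a : ℝ) then (a : ℝ) ^ k else 0) := by
    intro u
    have hnn : 0 ≤ ∑ a ∈ Ico k n,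
        (if H.degree u = a ∧ 2 * x < (a : ℝ) then (a : ℝ) ^ k else 0) :=
      sum_nonneg (fun a _ => by split_ifs <;> positivity)
    have h2x : (0 : ℝ) ≤ (2 * x) ^ k := by positivity
    by_cases hku : k ≤ H.degree u
    · rw [if_pos hku]
      by_cases hlow : ((H.degree u : ℕ) : ℝ) ≤ 2 * x
      · have : ((H.degree u : ℕ) : ℝ) ^ k ≤ (2 * x) ^ k :=
          pow_le_pow_left₀ (by positivity) hlow k
        linarith
      · rw [not_le] at hlow
        have hdn : H.degree u < n := by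
          have := H.degree_lt_card_verts u
          simpa using this
        have hmem : H.degree u ∈ Ico k n := mem_Ico.2 ⟨hku, hdn⟩
        have h3 : ((H.degree u : ℕ) : ℝ) ^ k ≤ ∑ a ∈ Ico k n,
            (if H.degree u = a ∧ 2 * x < (a : ℝ) then (a : ℝ) ^ k else 0) := by
          have h4 := single_le_sum (f := fun a : ℕ =>
            (if H.degree u = a ∧ 2 * x < (a : ℝ) then (a : ℝ) ^ k else 0))
            (fun a _ => by split_ifs <;> positivity) hmem
          simp only [true_and] at h4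
          rw [if_pos hlow] at h4
          exact h4
        linarith
    · rw [if_neg hku]; positivity
  have hcol : ∀ a ∈ Ico k n,
      (∑ u : Fin n, (if H.degree u = a ∧ 2 * x < (a : ℝ) then (a : ℝ) ^ k else 0)) ≤
      ((a : ℝ) + 1) * (Real.exp 1 * n * x ^ k * (1 / 2 : ℝ) ^ (a - k)) := by
    intro a ha
    rw [mem_Ico] at ha
    have ha1 : 1 ≤ a := le_trans hk ha.1
    have hapos : (0 : ℝ) < (a : ℝ) := by exact_mod_cast ha1
    have hrhs : (0 : ℝ) ≤ ((a : ℝ) + 1) * (Real.exp 1 * n * x ^ k * (1 / 2 : ℝ) ^ (a - k)) := by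
      positivity
    by_cases h2 : 2 * x < (a : ℝ)
    · have e1 : (∑ u : Fin n, (if H.degree u = a ∧ 2 * x < (a : ℝ) then (a : ℝ) ^ k else 0)) =
          (((univ : Finset (Fin n)).filter (fun u => H.degree u = a)).card : ℝ) * (a : ℝ) ^ k := by
        rw [← sum_filter, sum_const, nsmul_eq_mul]
        congr 3
        ext u
        simp [h2]
      rw [e1]
      have hT := tail_bound hq0 h a ha1
      have hsub : (((univ : Finset (Fin n)).filter (fun u => H.degree u = a)).card : ℝ) ≤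
          (((univ : Finset (Fin n)).filter (fun u => a ≤ H.degree u)).card : ℝ) := by
        have hsub' : (univ : Finset (Fin n)).filter (fun u => H.degree u = a) ⊆
            (univ : Finset (Fin n)).filter (fun u => a ≤ H.degree u) := by
          intro u hu
          simp only [mem_filter, mem_univ, true_and] at hu ⊢
          omega
        exact_mod_cast card_le_card hsub'
      have hxa : x / a ≤ 1 / 2 := by
        rw [div_le_iff₀ hapos]; linarith
      have hxa0 : 0 ≤ x / a := by positivity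
      have e2 : (x / a) ^ a * (a : ℝ) ^ k = x ^ k * (x / a) ^ (a - k) := by
        have hak : (x / a) ^ a = (x / a) ^ k * (x / a) ^ (a - k) := by
          rw [← pow_add]
          congr 1
          omega
        rw [hak, mul_right_comm, ← mul_pow, div_mul_cancel₀ _ hapos.ne']
      have e3 : (x / a) ^ (a - k) ≤ (1 / 2 : ℝ) ^ (a - k) := pow_le_pow_left₀ hxa0 hxa _
      calc (((univ : Finset (Fin n)).filter (fun u => H.degree u = a)).card : ℝ) * (a : ℝ) ^ k
          ≤ (((a : ℝ) + 1) * (Real.exp 1 * n * (x / a) ^ a)) * (a : ℝ) ^ k := by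
            apply mul_le_mul_of_nonneg_right (le_trans hsub hT) (by positivity)
        _ = ((a : ℝ) + 1) * (Real.exp 1 * n * ((x / a) ^ a * (a : ℝ) ^ k)) := by ring
        _ = ((a : ℝ) + 1) * (Real.exp 1 * n * (x ^ k * (x / a) ^ (a - k))) := by rw [e2]
        _ ≤ ((a : ℝ) + 1) * (Real.exp 1 * n * (x ^ k * (1 / 2 : ℝ) ^ (a - k))) := by
            gcongr
        _ = ((a : ℝ) + 1) * (Real.exp 1 * n * x ^ k * (1 / 2 : ℝ) ^ (a - k)) := by ring
    · have e1 : (∑ u : Fin n, (if H.degree u = a ∧ 2 * x < (a : ℝ) then (a : ℝ) ^ k else 0)) =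
          0 := by
        apply sum_eq_zero
        intro u _
        rw [if_neg (fun hh => h2 hh.2)]
      rw [e1]
      exact hrhs
  have hgeo : ∑ a ∈ Ico k n, ((a : ℝ) + 1) * (Real.exp 1 * n * x ^ k * (1 / 2 : ℝ) ^ (a - k)) ≤
      Real.exp 1 * n * x ^ k * (2 * k + 4) := by
    rw [sum_Ico_eq_sum_range]
    have e1 : ∀ i ∈ range (n - k),
        ((((k + i : ℕ) : ℝ)) + 1) * (Real.exp 1 * n * x ^ k * (1 / 2 : ℝ) ^ (k + i - k)) =
        (Real.exp 1 * n * x ^ k) * ((((k : ℝ) + 1) + i) * (1 / 2 : ℝ) ^ i) := by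
      intro i _
      rw [Nat.add_sub_cancel_left]
      push_cast
      ring
    rw [sum_congr rfl e1, ← mul_sum]
    apply mul_le_mul_of_nonneg_left _ (by positivity)
    have := geom_sum_le ((k : ℝ) + 1) (by positivity) (n - k)
    linarith
  have hexp : Real.exp 1 < 3 := Real.exp_one_lt_three
  have hnat : ((2 : ℝ) ^ k + 6 * k + 12) ≤ (20 : ℝ) ^ k := by
    exact_mod_cast nat_aux k hk
  calc (∑ u : Fin n, if k ≤ H.degree u then ((H.degree u : ℕ) : ℝ) ^ k else 0)
      ≤ ∑ u : Fin n, ((2 * x) ^ k + ∑ a ∈ Ico k n,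
          (if H.degree u = a ∧ 2 * x < (a : ℝ) then (a : ℝ) ^ k else 0)) :=
        sum_le_sum (fun u _ => hpt u)
    _ = n * (2 * x) ^ k + ∑ a ∈ Ico k n, ∑ u : Fin n,
          (if H.degree u = a ∧ 2 * x < (a : ℝ) then (a : ℝ) ^ k else 0) := by
        rw [sum_add_distrib, sum_const, card_univ, Fintype.card_fin, nsmul_eq_mul, sum_comm]
    _ ≤ n * (2 * x) ^ k + ∑ a ∈ Ico k n,
          ((a : ℝ) + 1) * (Real.exp 1 * n * x ^ k * (1 / 2 : ℝ) ^ (a - k)) := by
        gcongr with a ha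
        exact hcol a ha
    _ ≤ n * (2 * x) ^ k + Real.exp 1 * n * x ^ k * (2 * k + 4) := by linarith
    _ ≤ n * (2 * x) ^ k + 3 * n * x ^ k * (2 * k + 4) := by
        have : (0 : ℝ) ≤ n * x ^ k * (2 * k + 4) := by positivity
        nlinarith
    _ = n * x ^ k * ((2 : ℝ) ^ k + 6 * k + 12) := by rw [mul_pow]; ring
    _ ≤ n * x ^ k * (20 : ℝ) ^ k := by
        apply mul_le_mul_of_nonneg_left hnat (by positivity)
    _ = n * (20 * x) ^ k := by rw [mul_pow]; ring

end Vale.Agent.KK
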