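import Vale.Agent.KK.Hyp

/-!
# Unions of stars inside `H` and the degree tail bound
-/

namespace Vale.Agent.KK

open SimpleGraph Finset

variable {V : Type*}

/-- The union of the stars with centres `u ∈ M` and leaf sets `A u`. -/
def starUnion (M : Finset V) (A : V → Finset V) : SimpleGraph V :=
  SimpleGraph.fromRel (fun x y => x ∈ M ∧ y ∈ A x)

theorem starUnion_adj {M : Finset V} {A : V → Finset V} {x y : V} :
    (starUnion M A).Adj x y ↔ x ≠ y ∧ ((x ∈ M ∧ y ∈ A x) ∨ (y ∈ M ∧ x ∈ A y)) := by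
  simp [starUnion]

theorem starUnion_le [Fintype V] {H : SimpleGraph V} [DecidableRel H.Adj] {M : Finset V}
    {A : V → Finset V} (hA : ∀ u ∈ M, A u ⊆ H.neighborFinset u) :
    starUnion M A ≤ H := by
  intro x y h
  rw [starUnion_adj] at h
  rcases h.2 with ⟨hx, hy⟩ | ⟨hy, hx⟩
  · have := hA x hx hy
    simpa using this
  · have := hA y hy hx
    have h2 : H.Adj y x := by simpa using this
    exact h2.symm

theorem starUnion_cover {M : Finset V} {A : V → Finset V} :
    ∀ v w, (starUnion M A).Adj v w → v ∈ M ∨ w ∈ M := by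
  intro v w h
  rw [starUnion_adj] at h
  rcases h.2 with ⟨hx, _⟩ | ⟨hy, _⟩
  · exact Or.inl hx
  · exact Or.inr hy

theorem starUnion_edgeSet [DecidableEq V] {M : Finset V} {A : V → Finset V}
    (hA : ∀ u ∈ M, u ∉ A u) :
    (starUnion M A).edgeSet = ↑(M.biUnion fun u => (A u).image fun x => s(u, x)) := by
  ext e
  induction e using Sym2.ind with
  | _ a b =>
    rw [mem_edgeSet, starUnion_adj, mem_coe, mem_biUnion]
    constructor
    · rintro ⟨_, ⟨ha, hb⟩ | ⟨hb, ha⟩⟩
      · exact ⟨a, ha, mem_image.2 ⟨b, hb, rfl⟩⟩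
      · exact ⟨b, hb, mem_image.2 ⟨a, ha, Sym2.eq_swap⟩⟩
    · rintro ⟨u, hu, hx⟩
      rw [mem_image] at hx
      obtain ⟨x, hx, hux⟩ := hx
      rw [Sym2.eq_iff] at hux
      rcases hux with ⟨h1, h2⟩ | ⟨h1, h2⟩
      · subst h1; subst h2
        exact ⟨fun h => hA u hu (h ▸ hx), Or.inl ⟨hu, hx⟩⟩
      · subst h1; subst h2
        exact ⟨fun h => hA u hu (h ▸ hx), Or.inr ⟨hu, hx⟩⟩

theorem starUnion_ncard [DecidableEq V] {M : Finset V} {A : V → Finset V}
    (hA : ∀ u ∈ M, u ∉ A u)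
    (hdisj : ∀ u ∈ M, ∀ u' ∈ M, u ≠ u' → u' ∈ A u → u ∉ A u') :
    (starUnion M A).edgeSet.ncard = ∑ u ∈ M, (A u).card := by
  classical
  rw [starUnion_edgeSet hA, Set.ncard_coe_finset, card_biUnion]
  · apply sum_congr rfl
    intro u _
    apply card_image_of_injective
    intro x y h
    rw [Sym2.eq_iff] at h
    rcases h with ⟨_, h⟩ | ⟨h1, h2⟩
    · exact h
    · rw [← h1, h2]
  · intro u hu u' hu' hne
    rw [Function.onFun, Finset.disjoint_left]
    intro e he he'
    rw [mem_image] at he he'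
    obtain ⟨x, hx, rfl⟩ := he
    obtain ⟨y, hy, hxy⟩ := he'
    rw [Sym2.eq_iff] at hxy
    rcases hxy with ⟨h1, _⟩ | ⟨h1, h2⟩
    · exact hne h1.symm
    · rw [← h1] at hx
      rw [h2] at hy
      exact hdisj u hu u' hu' hne hx hy

end Vale.Agent.KK
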