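import Vale.Agent.KK.Stars

/-!
# Consequences of the expectation hypothesis: edges, degrees, degree tails
-/

namespace Vale.Agent.KK

open SimpleGraph Finset

variable {n : ℕ}

/-- Greedy selection of edge-disjoint stars with `a` leaves. -/
theorem exists_greedy (H : SimpleGraph (Fin n)) [DecidableRel H.Adj] (a : ℕ) :
    ∀ M : Finset (Fin n), (∀ u ∈ M, a ≤ H.degree u) →
    ∃ (M' : Finset (Fin n)) (A : Fin n → Finset (Fin n)), M' ⊆ M ∧
      (∀ u ∈ M', A u ⊆ H.neighborFinset u ∧ (A u).card = a) ∧
      (∀ u ∈ M', ∀ u' ∈ M', u ≠ u' → u' ∈ A u → u ∉ A u') ∧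
      M.card ≤ (a + 1) * M'.card := by
  intro M
  induction M using Finset.strongInduction with
  | H M ih =>
    intro hM
    by_cases hne : M.Nonempty
    · obtain ⟨u, hu⟩ := hne
      have hdeg := hM u hu
      obtain ⟨Au, hAu, hcard⟩ := exists_subset_card_eq (s := H.neighborFinset u) (n := a)
        (by rw [card_neighborFinset_eq_degree]; exact hdeg)
      have hM₁ : M \ (insert u Au) ⊂ M := by
        rw [ssubset_iff_of_subset sdiff_subset]
        exact ⟨u, hu, fun h => (mem_sdiff.1 h).2 (mem_insert_self u Au)⟩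
      obtain ⟨M', A, hsub, hA, hdis, hc⟩ := ih (M \ (insert u Au)) hM₁
        (fun v hv => hM v (mem_sdiff.1 hv).1)
      have huM' : u ∉ M' := fun h => (mem_sdiff.1 (hsub h)).2 (mem_insert_self u Au)
      have hAuM' : ∀ v ∈ M', v ∉ Au := fun v hv h =>
        (mem_sdiff.1 (hsub hv)).2 (mem_insert_of_mem h)
      refine ⟨insert u M', Function.update A u Au, ?_, ?_, ?_, ?_⟩
      · intro v hv
        rw [mem_insert] at hv
        rcases hv with rfl | hv
        · exact hu
        · exact (mem_sdiff.1 (hsub hv)).1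
      · intro v hv
        rw [mem_insert] at hv
        rcases hv with rfl | hv
        · rw [Function.update_self]
          exact ⟨hAu, hcard⟩
        · have hvu : v ≠ u := fun h => huM' (h ▸ hv)
          rw [Function.update_of_ne hvu]
          exact hA v hv
      · intro v hv v' hv' hvv' hmem
        rw [mem_insert] at hv hv'
        rcases hv with rfl | hv
        · rcases hv' with rfl | hv'
          · exact absurd rfl hvv'
          · rw [Function.update_self] at hmem
            exact absurd hmem (hAuM' v' hv')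
        · have hvu : v ≠ u := fun h => huM' (h ▸ hv)
          rw [Function.update_of_ne hvu] at hmem
          rcases hv' with rfl | hv'
          · rw [Function.update_self]
            exact hAuM' v hv
          · have hvu' : v' ≠ u := fun h => huM' (h ▸ hv')
            rw [Function.update_of_ne hvu']
            exact hdis v hv v' hv' hvv' hmem
      · have h1 : M.card ≤ (M \ (insert u Au)).card + (insert u Au).card :=
          card_le_card_sdiff_add_card
        have h2 : (insert u Au).card ≤ a + 1 := by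
          calc (insert u Au).card ≤ Au.card + 1 := card_insert_le u Au
            _ = a + 1 := by rw [hcard]
        rw [card_insert_of_notMem huM']
        calc M.card ≤ (M \ (insert u Au)).card + (insert u Au).card := h1
          _ ≤ (a + 1) * M'.card + (a + 1) := Nat.add_le_add hc h2
          _ = (a + 1) * (M'.card + 1) := by ring
    · rw [not_nonempty_iff_eq_empty] at hne
      subst hne
      exact ⟨∅, fun _ => ∅, Subset.refl _, by simp, by simp, by simp⟩

/-- **Degree tail bound.** The number of vertices of degree at least `a` is at most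
`(a+1) * e * n * (e n q / a)^a`. -/
theorem tail_bound {H : SimpleGraph (Fin n)} [DecidableRel H.Adj] {q : ℝ} (hq0 : 0 ≤ q)
    (h : SubgraphsExpected n H q) (a : ℕ) (ha : 1 ≤ a) :
    (((univ : Finset (Fin n)).filter (fun u => a ≤ H.degree u)).card : ℝ) ≤
      (a + 1) * (Real.exp 1 * n * (Real.exp 1 * n * q / a) ^ a) := by
  obtain ⟨M', A, -, hA, hdis, hc⟩ := exists_greedy H a
    ((univ : Finset (Fin n)).filter (fun u => a ≤ H.degree u))
    (fun u hu => (mem_filter.1 hu).2)
  have hapos : (0 : ℝ) < (a : ℝ) := by exact_mod_cast ha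
  have hRHS : (0 : ℝ) ≤ Real.exp 1 * n * (Real.exp 1 * n * q / a) ^ a := by positivity
  have hc' : (((univ : Finset (Fin n)).filter (fun u => a ≤ H.degree u)).card : ℝ) ≤
      (a + 1) * (M'.card : ℝ) := by exact_mod_cast hc
  refine le_trans hc' ?_
  apply mul_le_mul_of_nonneg_left _ (by positivity)
  by_cases hm : M'.card = 0
  · rw [hm]; simpa using hRHS
  have hmpos : (0 : ℝ) < (M'.card : ℝ) := by exact_mod_cast Nat.pos_of_ne_zero hm
  have hA1 : ∀ u ∈ M', A u ⊆ H.neighborFinset u := fun u hu => (hA u hu).1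
  have hA2 : ∀ u ∈ M', u ∉ A u := fun u hu hmem => by
    have := hA1 u hu hmem
    simp at this
  have hcard : (starUnion M' A).edgeSet.ncard = M'.card * a := by
    rw [starUnion_ncard hA2 hdis, sum_congr rfl (fun u hu => (hA u hu).2), sum_const, smul_eq_mul]
  have key := cover_ineq hq0 h (starUnion M' A) (starUnion_le hA1) M' starUnion_cover
  rw [hcard] at key
  have hma : 1 ≤ M'.card * a := Nat.one_le_iff_ne_zero.2 (Nat.mul_ne_zero hm (by omega))
  have b1 := choose_le_exp_pow n M'.card (Nat.one_le_iff_ne_zero.2 hm)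
  have b2 := choose_le_exp_pow (M'.card * n) (M'.card * a) hma
  have e2 : Real.exp 1 * ((M'.card * n : ℕ) : ℝ) / ((M'.card * a : ℕ) : ℝ) =
      Real.exp 1 * n / a := by
    push_cast
    field_simp
  rw [e2] at b2
  have key2 : (1 : ℝ) ≤ ((Real.exp 1 * n / M'.card) * (Real.exp 1 * n * q / a) ^ a) ^ M'.card := by
    calc (1 : ℝ) ≤ ((n.choose M'.card : ℝ) * ((M'.card * n).choose (M'.card * a) : ℝ)) *
          q ^ (M'.card * a) := key
      _ ≤ ((Real.exp 1 * n / M'.card) ^ M'.card * (Real.exp 1 * n / a) ^ (M'.card * a)) *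
          q ^ (M'.card * a) := by
          apply mul_le_mul_of_nonneg_right _ (by positivity)
          apply mul_le_mul b1 b2 (by positivity) (by positivity)
      _ = ((Real.exp 1 * n / M'.card) * (Real.exp 1 * n * q / a) ^ a) ^ M'.card := by
          rw [mul_pow, ← pow_mul, mul_assoc, ← mul_pow, mul_comm a M'.card]
          congr 2
          ring
  have key3 := one_le_of_one_le_pow (by positivity) hm key2
  have : (M'.card : ℝ) ≤ (Real.exp 1 * n / M'.card * (Real.exp 1 * n * q / a) ^ a) * M'.card :=
    le_mul_of_one_le_left hmpos.le key3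
  calc (M'.card : ℝ) ≤ (Real.exp 1 * n / M'.card * (Real.exp 1 * n * q / a) ^ a) * M'.card := this
    _ = Real.exp 1 * n * (Real.exp 1 * n * q / a) ^ a := by field_simp

/-- **Edge bound.** `e(H) ≤ e * n^2 * q`. -/
theorem edges_bound {H : SimpleGraph (Fin n)} {q : ℝ} (hq0 : 0 ≤ q)
    (h : SubgraphsExpected n H q) :
    (H.edgeSet.ncard : ℝ) ≤ Real.exp 1 * (n : ℝ) ^ 2 * q := by
  by_cases he : H.edgeSet.ncard = 0
  · rw [he]; simp only [Nat.cast_zero]; positivity
  have hepos : (0 : ℝ) < (H.edgeSet.ncard : ℝ) := by exact_mod_cast Nat.pos_of_ne_zero he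
  have key := cover_ineq hq0 h H le_rfl univ (fun v _ _ => Or.inl (mem_univ v))
  rw [card_univ, Fintype.card_fin, Nat.choose_self, Nat.cast_one, one_mul] at key
  have b := choose_le_exp_pow (n * n) H.edgeSet.ncard (Nat.one_le_iff_ne_zero.2 he)
  have key2 : (1 : ℝ) ≤ (Real.exp 1 * (n : ℝ) ^ 2 * q / H.edgeSet.ncard) ^ H.edgeSet.ncard := by
    calc (1 : ℝ) ≤ ((n * n).choose H.edgeSet.ncard : ℝ) * q ^ H.edgeSet.ncard := key
      _ ≤ (Real.exp 1 * ((n * n : ℕ) : ℝ) / H.edgeSet.ncard) ^ H.edgeSet.ncard *
          q ^ H.edgeSet.ncard := mul_le_mul_of_nonneg_right b (by positivity)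
      _ = (Real.exp 1 * (n : ℝ) ^ 2 * q / H.edgeSet.ncard) ^ H.edgeSet.ncard := by
          rw [← mul_pow]
          congr 1
          push_cast
          ring
  have key3 := one_le_of_one_le_pow (by positivity) he key2
  have := le_mul_of_one_le_left hepos.le key3
  calc (H.edgeSet.ncard : ℝ) ≤ (Real.exp 1 * (n : ℝ) ^ 2 * q / H.edgeSet.ncard) *
        H.edgeSet.ncard := this
    _ = Real.exp 1 * (n : ℝ) ^ 2 * q := by field_simp

/-- **Maximum degree bound.** Every degree is at most `max (log n) (e^2 n q)`. -/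
theorem degree_bound {H : SimpleGraph (Fin n)} [DecidableRel H.Adj] {q : ℝ} (hq0 : 0 ≤ q)
    (h : SubgraphsExpected n H q) (u : Fin n) :
    (H.degree u : ℝ) ≤ max (Real.log n) (Real.exp 2 * n * q) := by
  have hn : 1 ≤ n := Nat.one_le_iff_ne_zero.2 (fun h0 => by subst h0; exact u.elim0)
  have hnpos : (0 : ℝ) < (n : ℝ) := by exact_mod_cast hn
  by_cases hD : H.degree u = 0
  · rw [hD]; simp only [Nat.cast_zero]
    exact le_trans (by positivity) (le_max_right _ _)
  have hDpos : (0 : ℝ) < (H.degree u : ℝ) := by exact_mod_cast Nat.pos_of_ne_zero hD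
  by_cases hlog : (H.degree u : ℝ) ≤ Real.log n
  · exact le_trans hlog (le_max_left _ _)
  rw [not_le] at hlog
  have hexp : (n : ℝ) < Real.exp (H.degree u) := (Real.log_lt_iff_lt_exp hnpos).1 hlog
  have hA1 : ∀ v ∈ ({u} : Finset (Fin n)),
      (fun _ : Fin n => H.neighborFinset u) v ⊆ H.neighborFinset v := by
    intro v hv
    rw [mem_singleton] at hv
    subst hv
    exact Subset.refl _
  have hA2 : ∀ v ∈ ({u} : Finset (Fin n)), v ∉ (fun _ : Fin n => H.neighborFinset u) v := by
    intro v hv hmem
    rw [mem_singleton] at hv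
    subst hv
    simp at hmem
  have hcard : (starUnion {u} (fun _ : Fin n => H.neighborFinset u)).edgeSet.ncard =
      H.degree u := by
    rw [starUnion_ncard hA2]
    · simp
    · intro v hv v' hv' hne
      rw [mem_singleton] at hv hv'
      exact absurd (hv.trans hv'.symm) hne
  have key := cover_ineq hq0 h _ (starUnion_le hA1) {u} starUnion_cover
  rw [hcard, card_singleton, Nat.choose_one_right, one_mul] at key
  have b := choose_le_exp_pow n (H.degree u) (Nat.one_le_iff_ne_zero.2 hD)
  set x : ℝ := Real.exp 1 * n * q / H.degree u with hx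
  have hx0 : 0 ≤ x := by positivity
  have key2 : (1 : ℝ) ≤ n * x ^ H.degree u := by
    calc (1 : ℝ) ≤ ((n : ℝ) * (n.choose (H.degree u) : ℝ)) * q ^ H.degree u := key
      _ ≤ ((n : ℝ) * (Real.exp 1 * n / H.degree u) ^ H.degree u) * q ^ H.degree u := by
          apply mul_le_mul_of_nonneg_right _ (by positivity)
          exact mul_le_mul_of_nonneg_left b hnpos.le
      _ = n * x ^ H.degree u := by
          rw [mul_assoc, ← mul_pow, hx]
          congr 2
          ring
  have hxpow : 0 < x ^ H.degree u := by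
    by_contra hneg
    rw [not_lt] at hneg
    have : (n : ℝ) * x ^ H.degree u ≤ 0 := mul_nonpos_of_nonneg_of_nonpos hnpos.le hneg
    linarith
  have key3 : (1 : ℝ) < (Real.exp 1 * x) ^ H.degree u := by
    calc (1 : ℝ) ≤ n * x ^ H.degree u := key2
      _ < Real.exp (H.degree u) * x ^ H.degree u := mul_lt_mul_of_pos_right hexp hxpow
      _ = (Real.exp 1 * x) ^ H.degree u := by
          rw [mul_pow, ← Real.exp_nat_mul, mul_one]
  have key4 : 1 < Real.exp 1 * x := by
    by_contra hneg
    rw [not_lt] at hneg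
    have := pow_le_one₀ (n := H.degree u) (by positivity) hneg
    linarith
  have key5 : (H.degree u : ℝ) < Real.exp 2 * n * q := by
    have h2 : Real.exp 1 * x = Real.exp 2 * n * q / H.degree u := by
      rw [hx, show (2 : ℝ) = 1 + 1 by norm_num, Real.exp_add]
      ring
    rw [h2, lt_div_iff₀ hDpos] at key4
    linarith
  exact le_trans key5.le (le_max_right _ _)

end Vale.Agent.KK
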